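/-
Row 152, module EV (helper531): from grammars to subsets of groups.
`Gen G B p ν i x`: the element `x` is the value of a word derivable in the sort `i`.
Users never touch words: rules of the grammar become closure properties of `Gen` (completeness),
and `Der.sound` turns "every rule is a true inclusion" into soundness.
-/
import Claimed.Agent.R152.RE.Closure

set_option autoImplicit false

namespace Claimed.Agent.R152.EV

open Claimed.Agent.R152.RE

variable {σ α π : Type*} {M : Type*} [Monoid M]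

/-- The value of a word under an assignment of the letters. -/
def val (ν : α → M) (w : List α) : M := (w.map ν).prod

@[simp] theorem val_nil (ν : α → M) : val ν [] = 1 := rfl

@[simp] theorem val_cons (ν : α → M) (a : α) (w : List α) : val ν (a :: w) = ν a * val ν w := by
  simp [val]

@[simp] theorem val_append (ν : α → M) (u v : List α) : val ν (u ++ v) = val ν u * val ν v := by
  simp [val]

theorem val_singleton (ν : α → M) (a : α) : val ν [a] = ν a := by simp [val]

/-- Substitution: if `θ` is a monoid endomorphism with `θ (ν a) = val ν (th a)`, then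
`val ν (w.flatMap th) = θ (val ν w)`. -/
theorem val_flatMap (ν : α → M) (th : α → List α) (θ : M →* M)
    (h : ∀ a, val ν (th a) = θ (ν a)) (w : List α) : val ν (w.flatMap th) = θ (val ν w) := by
  induction w with
  | nil => simp
  | cons a w ih => simp [List.flatMap_cons, ih, h]

/-- Change of alphabet. -/
theorem val_flatMap' {β : Type*} (ν : α → M) (ν' : β → M) (f : α → List β)
    (h : ∀ a, val ν' (f a) = ν a) (w : List α) : val ν' (w.flatMap f) = val ν w := by
  induction w with
  | nil => simp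
  | cons a w ih => simp [List.flatMap_cons, ih, h]

/-- `x` is the value of a word derivable in the sort `i`. -/
def Gen (G : Gram σ α) (B : π → σ → List α → Prop) (p : π) (ν : α → M) (i : σ) (x : M) : Prop :=
  ∃ w, Der G B p i w ∧ val ν w = x

namespace Gen

variable {G : Gram σ α} {B : π → σ → List α → Prop} {p : π} {ν : α → M}

theorem base {i : σ} {w : List α} (h : B p i w) : Gen G B p ν i (val ν w) := ⟨w, Der.base h, rfl⟩

theorem cat {i a b : σ} {x y : M} (h : (i, a, b) ∈ G.cat) (hx : Gen G B p ν a x)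
    (hy : Gen G B p ν b y) : Gen G B p ν i (x * y) := by
  obtain ⟨u, hu, rfl⟩ := hx
  obtain ⟨v, hv, rfl⟩ := hy
  exact ⟨u ++ v, Der.cat h hu hv, val_append ν u v⟩

theorem sub {i a : σ} {x : M} (h : (i, a) ∈ G.sub) (hx : Gen G B p ν a x) : Gen G B p ν i x := by
  obtain ⟨u, hu, rfl⟩ := hx
  exact ⟨u, Der.sub h hu, rfl⟩

theorem mor {i a : σ} {x : M} (θ : M →* M) (hθ : ∀ a, val ν (G.th a) = θ (ν a))
    (h : (i, a) ∈ G.mor) (hx : Gen G B p ν a x) : Gen G B p ν i (θ x) := by
  obtain ⟨u, hu, rfl⟩ := hx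
  exact ⟨u.flatMap G.th, Der.mor h hu, val_flatMap ν G.th θ hθ u⟩

end Gen

/-- SOUNDNESS. If `I : σ → Set M` interprets the sorts and every rule is a true inclusion, then every
derivable word has its value in the interpretation of its sort. -/
theorem Der.sound {G : Gram σ α} {B : π → σ → List α → Prop} {p : π} {ν : α → M} (θ : M →* M)
    (hθ : ∀ a, val ν (G.th a) = θ (ν a)) (I : σ → Set M)
    (hbase : ∀ i w, B p i w → val ν w ∈ I i)
    (hcat : ∀ i a b, (i, a, b) ∈ G.cat → ∀ x ∈ I a, ∀ y ∈ I b, x * y ∈ I i)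
    (hsub : ∀ i a, (i, a) ∈ G.sub → ∀ x ∈ I a, x ∈ I i)
    (hmor : ∀ i a, (i, a) ∈ G.mor → ∀ x ∈ I a, θ x ∈ I i)
    {i : σ} {w : List α} (h : Der G B p i w) : val ν w ∈ I i := by
  induction h with
  | base h => exact hbase _ _ h
  | cat h _ _ ihu ihv => rw [val_append]; exact hcat _ _ _ h _ ihu _ ihv
  | sub h _ ihu => exact hsub _ _ h _ ihu
  | mor h _ ihu => rw [val_flatMap ν G.th θ hθ]; exact hmor _ _ h _ ihu

theorem Gen.sound {G : Gram σ α} {B : π → σ → List α → Prop} {p : π} {ν : α → M} (θ : M →* M)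
    (hθ : ∀ a, val ν (G.th a) = θ (ν a)) (I : σ → Set M)
    (hbase : ∀ i w, B p i w → val ν w ∈ I i)
    (hcat : ∀ i a b, (i, a, b) ∈ G.cat → ∀ x ∈ I a, ∀ y ∈ I b, x * y ∈ I i)
    (hsub : ∀ i a, (i, a) ∈ G.sub → ∀ x ∈ I a, x ∈ I i)
    (hmor : ∀ i a, (i, a) ∈ G.mor → ∀ x ∈ I a, θ x ∈ I i)
    {i : σ} {x : M} (h : Gen G B p ν i x) : x ∈ I i := by
  obtain ⟨w, hw, rfl⟩ := h
  exact Der.sound θ hθ I hbase hcat hsub hmor hw

end Claimed.Agent.R152.EV
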