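/-
Row 152, module EV (helper531): THE CALCULUS OF R.E. SUBSETS OF A MARKED GROUP.
A marking `μ : Mark α M` = letters `α` with formal inverses, generating `M`, such that the POSITIVE word
problem `{w | val w = 1}` is r.e. (true for every finitely presented group: `Mark.ofFP`, file `EV/MarkFP.lean`).
`RESet μ S` (`S : π → Set M`, `π` = parameters): the SATURATED language `{(p,w) | val w ∈ S p}` is r.e.
Closure properties: `∪`, `∩`, finite and countable unions, finite intersections, products, inverses, singletons,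
images and preimages under word maps and under homomorphisms of marked groups, subgroup closure,
right-linear systems (`RL`), powers `{g ^ n | P n}`.  No complements: these are the mathematical content.
-/
import Claimed.Agent.R152.EV.Gen

set_option autoImplicit false

namespace Claimed.Agent.R152.EV

open Claimed.Agent.R152.RE
open scoped Pointwise

/-- A marking of the group `M`. -/
structure Mark (α : Type*) [Primcodable α] (M : Type*) [Group M] where
  /-- the values of the letters -/
  ν : α → M
  /-- formal inverses -/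
  inv : α → α
  ν_inv : ∀ a, ν (inv a) = (ν a)⁻¹
  surj : ∀ x : M, ∃ w, val ν w = x
  inv_primrec : Primrec inv
  /-- the positive word problem is r.e. -/
  wp : REPred fun w : List α => val ν w = 1

variable {α β γ π : Type*} [Primcodable α] [Primcodable β] [Primcodable γ] [Primcodable π]
variable {M : Type*} [Group M] {M' : Type*} [Group M']

namespace Mark

variable (μ : Mark α M)

/-- The value of a word. -/
def ev (w : List α) : M := val μ.ν w

theorem exists_ev (x : M) : ∃ w, μ.ev w = x := μ.surj x

@[simp] theorem ev_nil : μ.ev [] = 1 := rfl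

@[simp] theorem ev_append (u v : List α) : μ.ev (u ++ v) = μ.ev u * μ.ev v := val_append _ _ _

@[simp] theorem ev_cons (a : α) (w : List α) : μ.ev (a :: w) = μ.ν a * μ.ev w := val_cons _ _ _

/-- The formal inverse of a word. -/
def invW (w : List α) : List α := (w.map μ.inv).reverse

@[simp] theorem ev_invW (w : List α) : μ.ev (μ.invW w) = (μ.ev w)⁻¹ := by
  induction w with
  | nil => simp [invW]
  | cons a w ih =>
    have : μ.invW (a :: w) = μ.invW w ++ [μ.inv a] := by simp [invW]
    rw [this, ev_append, ih, ev_cons, ev_cons, ev_nil, μ.ν_inv, mul_one, mul_inv_rev]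

theorem primrec_invW : Primrec μ.invW :=
  Primrec.list_reverse.comp (Primrec.list_map Primrec.id (μ.inv_primrec.comp Primrec.snd))

/-- Equality of the values of two words is r.e. -/
theorem re_ev_eq : REPred fun x : List α × List α => μ.ev x.1 = μ.ev x.2 := by
  have h : REPred fun x : List α × List α => μ.ev (x.1 ++ μ.invW x.2) = 1 :=
    re_comp μ.wp (Primrec.list_append.comp Primrec.fst (μ.primrec_invW.comp Primrec.snd)).to_comp
  exact h.of_eq (fun x => by rw [ev_append, ev_invW, mul_inv_eq_one])

end Mark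

/-- `S` is an r.e. family of subsets of the marked group: `{(p,w) | val w ∈ S p}` is r.e. -/
def RESet (μ : Mark α M) (S : π → Set M) : Prop := RELang fun p w => μ.ev w ∈ S p

/-- `f` is induced by a computable map of words. -/
def IsWordMap (μ : Mark α M) (f : π → M → M) : Prop :=
  ∃ F : π → List α → List α, Computable₂ F ∧ ∀ p w, μ.ev (F p w) = f p (μ.ev w)

namespace IsWordMap

variable {μ : Mark α M}

theorem id : IsWordMap μ (fun (_ : π) x => x) := ⟨fun _ w => w, Computable.snd, fun _ _ => rfl⟩

theorem word {g : π → List α} (hg : Computable g) : IsWordMap μ (fun p _ => μ.ev (g p)) :=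
  ⟨fun p _ => g p, hg.comp Computable.fst, fun _ _ => rfl⟩

theorem const (c : M) : IsWordMap μ (fun (_ : π) _ => c) := by
  obtain ⟨w, hw⟩ := μ.exists_ev c
  exact ⟨fun _ _ => w, Computable.const w, fun _ _ => hw⟩

theorem mul {f g : π → M → M} (hf : IsWordMap μ f) (hg : IsWordMap μ g) :
    IsWordMap μ (fun p x => f p x * g p x) := by
  obtain ⟨F, hF, hF'⟩ := hf
  obtain ⟨G, hG, hG'⟩ := hg
  exact ⟨fun p w => F p w ++ G p w, Primrec.list_append.to_comp.comp hF hG,
    fun p w => by rw [Mark.ev_append, hF', hG']⟩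

theorem inv {f : π → M → M} (hf : IsWordMap μ f) : IsWordMap μ (fun p x => (f p x)⁻¹) := by
  obtain ⟨F, hF, hF'⟩ := hf
  exact ⟨fun p w => μ.invW (F p w), μ.primrec_invW.to_comp.comp hF,
    fun p w => by rw [Mark.ev_invW, hF']⟩

theorem comp {f g : π → M → M} (hf : IsWordMap μ f) (hg : IsWordMap μ g) :
    IsWordMap μ (fun p x => f p (g p x)) := by
  obtain ⟨F, hF, hF'⟩ := hf
  obtain ⟨G, hG, hG'⟩ := hg
  exact ⟨fun p w => F p (G p w), hF.comp Computable.fst hG, fun p w => by rw [hF', hG']⟩

/-- An endomorphism is a word map (finite alphabet). -/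
theorem hom [Finite α] (f : M →* M) : IsWordMap μ (fun (_ : π) x => f x) := by
  choose V hV using fun a => μ.exists_ev (f (μ.ν a))
  refine ⟨fun _ w => w.flatMap V, ?_, fun _ w => ?_⟩
  · exact (Primrec.list_flatMap Primrec.snd
      ((Primrec.dom_finite V).comp Primrec.snd).to₂).to_comp
  · show μ.ev (w.flatMap V) = f (μ.ev w)
    induction w with
    | nil => simp
    | cons a w ih =>
      rw [List.flatMap_cons, Mark.ev_append, ih, Mark.ev_cons, map_mul, hV a]

end IsWordMap

namespace RESet

variable {μ : Mark α M} {S S' : π → Set M}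

theorem of_eq (h : RESet μ S) (H : ∀ p, S p = S' p) : RESet μ S' :=
  RELang.of_iff h (fun p w => by rw [H p])

/-- The set of the values of an r.e. language. -/
theorem of_lang {Λ : π → List α → Prop} (h : RELang Λ) :
    RESet μ (fun p => {x | ∃ w, Λ p w ∧ μ.ev w = x}) := by
  have h1 : REPred fun y : (π × List α) × List α => Λ y.1.1 y.2 ∧ μ.ev y.2 = μ.ev y.1.2 :=
    re_and (re_comp h ((Computable.fst.comp Computable.fst).pair Computable.snd))
      (re_comp μ.re_ev_eq (Computable.snd.pair (Computable.snd.comp Computable.fst)))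
  exact re_exists h1

/-- Conversely. -/
theorem exists_lang (h : RESet μ S) :
    ∃ Λ : π → List α → Prop, RELang Λ ∧ ∀ p, S p = {x | ∃ w, Λ p w ∧ μ.ev w = x} := by
  refine ⟨_, h, fun p => ?_⟩
  ext x
  constructor
  · intro hx
    obtain ⟨w, rfl⟩ := μ.exists_ev x
    exact ⟨w, hx, rfl⟩
  · rintro ⟨w, hw, rfl⟩
    exact hw

theorem union (h : RESet μ S) (h' : RESet μ S') : RESet μ (fun p => S p ∪ S' p) :=
  RELang.union h h'

theorem inter (h : RESet μ S) (h' : RESet μ S') : RESet μ (fun p => S p ∩ S' p) :=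
  RELang.inter h h'

theorem univ : RESet μ (fun _ : π => Set.univ) := RELang.univ

theorem empty : RESet μ (fun _ : π => ∅) := RELang.empty

/-- Change of parameter. -/
theorem reparam (h : RESet μ S) {g : γ → π} (hg : Computable g) : RESet μ (fun p => S (g p)) :=
  RELang.reparam h hg

/-- A family which does not depend on the parameter. -/
theorem const {T : Set M} (h : RESet μ (fun _ : Unit => T)) : RESet μ (fun _ : π => T) :=
  h.reparam (Computable.const ())

/-- Countable unions. -/
theorem iUnion {T : π → β → Set M} (h : RESet μ (fun x : π × β => T x.1 x.2)) :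
    RESet μ (fun p => ⋃ b, T p b) := by
  have h1 : REPred fun y : (π × List α) × β => μ.ev y.1.2 ∈ T y.1.1 y.2 :=
    re_comp h (((Computable.fst.comp Computable.fst).pair Computable.snd).pair
      (Computable.snd.comp Computable.fst))
  exact (re_exists h1).of_eq (fun x => by simp)

/-- Restriction by an r.e. condition on the parameter. -/
theorem guard {P : π → Prop} (hP : REPred P) (h : RESet μ S) :
    RESet μ (fun p => {x | P p ∧ x ∈ S p}) :=
  re_and (re_comp hP Computable.fst) h

theorem biUnion_list {ι : Type*} (l : List ι) {T : ι → π → Set M} (h : ∀ i ∈ l, RESet μ (T i)) :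
    RESet μ (fun p => ⋃ i ∈ l, T i p) := by
  induction l with
  | nil => exact empty.of_eq (fun p => by simp)
  | cons i l ih =>
    exact ((h i List.mem_cons_self).union (ih fun j hj => h j (List.mem_cons_of_mem _ hj))).of_eq
      (fun p => by simp)

theorem biInter_list {ι : Type*} (l : List ι) {T : ι → π → Set M} (h : ∀ i ∈ l, RESet μ (T i)) :
    RESet μ (fun p => ⋂ i ∈ l, T i p) := by
  induction l with
  | nil => exact univ.of_eq (fun p => by simp)
  | cons i l ih =>
    exact ((h i List.mem_cons_self).inter (ih fun j hj => h j (List.mem_cons_of_mem _ hj))).of_eq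
      (fun p => by simp)

/-- Finite unions. -/
theorem iUnion_finite {ι : Type*} [Finite ι] {T : ι → π → Set M} (h : ∀ i, RESet μ (T i)) :
    RESet μ (fun p => ⋃ i, T i p) := by
  cases nonempty_fintype ι
  exact (biUnion_list (Finset.univ : Finset ι).toList (fun i _ => h i)).of_eq (fun p => by simp)

/-- Finite intersections. -/
theorem iInter_finite {ι : Type*} [Finite ι] {T : ι → π → Set M} (h : ∀ i, RESet μ (T i)) :
    RESet μ (fun p => ⋂ i, T i p) := by
  cases nonempty_fintype ι
  exact (biInter_list (Finset.univ : Finset ι).toList (fun i _ => h i)).of_eq (fun p => by simp)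

/-- Finite unions over a subset of a finite type. -/
theorem biUnion_finite {ι : Type*} [Finite ι] (J : Set ι) {T : ι → π → Set M}
    (h : ∀ i ∈ J, RESet μ (T i)) : RESet μ (fun p => ⋃ i ∈ J, T i p) := by
  classical
  have h1 : ∀ i, RESet μ (fun p => ⋃ _ : i ∈ J, T i p) := by
    intro i
    by_cases hi : i ∈ J
    · exact (h i hi).of_eq (fun p => by simp [hi])
    · exact empty.of_eq (fun p => by simp [hi])
  exact iUnion_finite h1

/-- Finite intersections over a subset of a finite type. -/
theorem biInter_finite {ι : Type*} [Finite ι] (J : Set ι) {T : ι → π → Set M}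
    (h : ∀ i ∈ J, RESet μ (T i)) : RESet μ (fun p => ⋂ i ∈ J, T i p) := by
  classical
  have h1 : ∀ i, RESet μ (fun p => ⋂ _ : i ∈ J, T i p) := by
    intro i
    by_cases hi : i ∈ J
    · exact (h i hi).of_eq (fun p => by simp [hi])
    · exact univ.of_eq (fun p => by simp [hi])
  exact iInter_finite h1

/-- Preimage under a word map. -/
theorem preimage {f : π → M → M} (hf : IsWordMap μ f) (h : RESet μ S) :
    RESet μ (fun p => f p ⁻¹' S p) := by
  obtain ⟨F, hF, hF'⟩ := hf
  have h1 : REPred fun x : π × List α => μ.ev (F x.1 x.2) ∈ S x.1 :=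
    re_comp h (Computable.fst.pair hF)
  exact h1.of_eq (fun x => by rw [hF']; rfl)

/-- Image under a word map. -/
theorem image {f : π → M → M} (hf : IsWordMap μ f) (h : RESet μ S) :
    RESet μ (fun p => f p '' S p) := by
  obtain ⟨F, hF, hF'⟩ := hf
  refine (of_lang (μ := μ) (RELang.image' h hF)).of_eq (fun p => ?_)
  ext x
  constructor
  · rintro ⟨_, ⟨u, hu, rfl⟩, rfl⟩
    exact ⟨μ.ev u, hu, (hF' p u).symm⟩
  · rintro ⟨y, hy, rfl⟩
    obtain ⟨u, rfl⟩ := μ.exists_ev y
    exact ⟨F p u, ⟨u, hy, rfl⟩, hF' p u⟩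

/-- Products. -/
theorem mul (h : RESet μ S) (h' : RESet μ S') : RESet μ (fun p => S p * S' p) := by
  refine (of_lang (μ := μ) (RELang.concat h h')).of_eq (fun p => ?_)
  ext x
  constructor
  · rintro ⟨_, ⟨u, v, hu, hv, rfl⟩, rfl⟩
    exact Set.mem_mul.2 ⟨_, hu, _, hv, (μ.ev_append u v).symm⟩
  · intro hx
    obtain ⟨a, ha, b, hb, rfl⟩ := Set.mem_mul.1 hx
    obtain ⟨u, rfl⟩ := μ.exists_ev a
    obtain ⟨v, rfl⟩ := μ.exists_ev b
    exact ⟨u ++ v, ⟨u, v, ha, hb, rfl⟩, μ.ev_append u v⟩

/-- Inverses. -/
theorem inv (h : RESet μ S) : RESet μ (fun p => (S p)⁻¹) :=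
  (h.preimage (IsWordMap.id.inv)).of_eq (fun p => by ext x; simp)

/-- A singleton given by a computable word. -/
theorem singleton_word {g : π → List α} (hg : Computable g) : RESet μ (fun p => {μ.ev (g p)}) := by
  refine (of_lang (μ := μ) (RELang.singleton hg)).of_eq (fun p => ?_)
  ext x
  constructor
  · rintro ⟨_, rfl, rfl⟩
    rfl
  · rintro rfl
    exact ⟨_, rfl, rfl⟩

/-- A constant singleton. -/
theorem singleton (x : M) : RESet μ (fun _ : π => {x}) := by
  obtain ⟨w, rfl⟩ := μ.exists_ev x
  exact singleton_word (Computable.const w)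

/-- A constant finite set. -/
theorem finite {T : Set M} (hT : T.Finite) : RESet μ (fun _ : π => T) := by
  have := hT.to_subtype
  exact (iUnion_finite (ι := T) (fun i => singleton (μ := μ) (π := π) (i : M))).of_eq
    (fun p => by ext x; simp)

/-- The powers `g ^ n`, `n` in an r.e. set. -/
theorem pow (g : M) {P : π → ℕ → Prop} (hP : REPred fun x : π × ℕ => P x.1 x.2) :
    RESet μ (fun p => {x | ∃ n, P p n ∧ x = g ^ n}) := by
  obtain ⟨w, rfl⟩ := μ.exists_ev g
  have hev : ∀ n : ℕ, μ.ev ((List.range n).flatMap fun _ => w) = μ.ev w ^ n := by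
    intro n
    induction n with
    | zero => simp
    | succ n ih =>
      rw [List.range_succ, List.flatMap_append, Mark.ev_append, ih, pow_succ]
      simp
  have hc : Computable fun x : π × ℕ => (List.range x.2).flatMap fun _ => w :=
    (Primrec.list_flatMap (Primrec.list_range.comp Primrec.snd) (Primrec.const w).to₂).to_comp
  have h1 : RESet μ (fun x : π × ℕ => {y | P x.1 x.2 ∧ y ∈ ({μ.ev w ^ x.2} : Set M)}) :=
    guard hP ((singleton_word hc).of_eq (fun x => by rw [hev]))
  exact (iUnion (T := fun p n => {y | P p n ∧ y ∈ ({μ.ev w ^ n} : Set M)}) h1).of_eq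
    (fun p => by ext x; simp)

/-- Conjugates: `{x | ∃ r ∈ R p, r * x * r⁻¹ ∈ S p}`. -/
theorem conj {R : π → Set M} (hR : RESet μ R) (h : RESet μ S) :
    RESet μ (fun p => {x | ∃ r ∈ R p, r * x * r⁻¹ ∈ S p}) := by
  have hc : Computable fun y : (π × List α) × List α => (y.1.1, y.2 ++ (y.1.2 ++ μ.invW y.2)) :=
    (Computable.fst.comp Computable.fst).pair (Primrec.list_append.comp Primrec.snd
      (Primrec.list_append.comp (Primrec.snd.comp Primrec.fst)
        (μ.primrec_invW.comp Primrec.snd))).to_comp
  have hc' : Computable fun y : (π × List α) × List α => (y.1.1, y.2) :=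
    (Computable.fst.comp Computable.fst).pair Computable.snd
  have h1 : REPred fun y : (π × List α) × List α =>
      μ.ev y.2 ∈ R y.1.1 ∧ μ.ev (y.2 ++ (y.1.2 ++ μ.invW y.2)) ∈ S y.1.1 :=
    re_and (re_comp hR hc') (re_comp h hc)
  refine (re_exists h1).of_eq (fun x => ?_)
  constructor
  · rintro ⟨u, hu, hS⟩
    refine ⟨μ.ev u, hu, ?_⟩
    rwa [Mark.ev_append, Mark.ev_append, Mark.ev_invW, ← mul_assoc] at hS
  · rintro ⟨r, hr, hS⟩
    obtain ⟨u, rfl⟩ := μ.exists_ev r
    refine ⟨u, hr, ?_⟩
    rwa [Mark.ev_append, Mark.ev_append, Mark.ev_invW, ← mul_assoc]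

/-- The union of the conjugates of `S p` by the elements of `R p`: `{r⁻¹ * s * r}`. -/
theorem conjBy {R : π → Set M} (hR : RESet μ R) (h : RESet μ S) :
    RESet μ (fun p => {x | ∃ r ∈ R p, ∃ s ∈ S p, x = r⁻¹ * s * r}) :=
  (conj hR h).of_eq (fun p => by
    ext x
    constructor
    · rintro ⟨r, hr, hs⟩
      exact ⟨r, hr, _, hs, by group⟩
    · rintro ⟨r, hr, s, hs, rfl⟩
      exact ⟨r, hr, by simpa [mul_assoc] using hs⟩)

end RESet

/-! ### Homomorphisms of marked groups -/

section Hom

variable {μ : Mark α M} {μ' : Mark β M'}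

/-- Words for the images of the letters. -/
theorem exists_subst [Finite α] (μ : Mark α M) (μ' : Mark β M') (f : M →* M') :
    ∃ V : α → List β, Primrec V ∧ ∀ w, μ'.ev (w.flatMap V) = f (μ.ev w) := by
  choose V hV using fun a => μ'.exists_ev (f (μ.ν a))
  refine ⟨V, Primrec.dom_finite V, fun w => ?_⟩
  induction w with
  | nil => simp
  | cons a w ih =>
    rw [List.flatMap_cons, Mark.ev_append, ih, Mark.ev_cons, map_mul, hV a]

/-- Preimage under a homomorphism. -/
theorem RESet.comap [Finite α] (f : M →* M') {S' : π → Set M'} (h : RESet μ' S') :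
    RESet μ (fun p => f ⁻¹' S' p) := by
  obtain ⟨V, hV, hV'⟩ := exists_subst μ μ' f
  have h1 : REPred fun x : π × List α => μ'.ev (x.2.flatMap V) ∈ S' x.1 :=
    re_comp h (Computable.fst.pair
      (Primrec.list_flatMap Primrec.snd (hV.comp Primrec.snd).to₂).to_comp)
  exact h1.of_eq (fun x => by rw [hV']; rfl)

/-- Image under a homomorphism. -/
theorem RESet.map [Finite α] (f : M →* M') {S : π → Set M} (h : RESet μ S) :
    RESet μ' (fun p => f '' S p) := by
  obtain ⟨V, hV, hV'⟩ := exists_subst μ μ' f
  have hV2 : Primrec₂ fun (_ : π) (a : α) => V a := hV.comp Primrec.snd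
  refine (RESet.of_lang (μ := μ') (RELang.image h hV2)).of_eq (fun p => ?_)
  ext x
  constructor
  · rintro ⟨_, ⟨u, hu, rfl⟩, rfl⟩
    exact ⟨μ.ev u, hu, (hV' u).symm⟩
  · rintro ⟨y, hy, rfl⟩
    obtain ⟨u, rfl⟩ := μ.exists_ev y
    exact ⟨u.flatMap V, ⟨u, hy, rfl⟩, hV' u⟩

end Hom

end Claimed.Agent.R152.EV
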