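/-
Row 152, module EV (helper531): right-linear systems over r.e. sets, subgroup closure.
`RL T E s x`:  `x = e₁ e₂ ⋯ e_n y`, `e_k ∈ E s_{k-1} s_k`, `y ∈ T s_n`, `s₀ = s`.
-/
import Claimed.Agent.R152.EV.RESet

set_option autoImplicit false

namespace Claimed.Agent.R152.EV

open Claimed.Agent.R152.RE
open scoped Pointwise

/-- The least solution of the right-linear system `X s = T s ∪ ⋃ s', E s s' * X s'`. -/
inductive RL {σ : Type*} {M : Type*} [Mul M] (T : σ → Set M) (E : σ → σ → Set M) : σ → M → Prop
  | last {s : σ} {x : M} (h : x ∈ T s) : RL T E s x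
  | step {s s' : σ} {e y : M} (he : e ∈ E s s') (hy : RL T E s' y) : RL T E s (e * y)

variable {α π σ : Type*} [Primcodable α] [Primcodable π] [Primcodable σ]
variable {M : Type*} [Group M]

/-- THE LEAST SOLUTION OF A FINITE RIGHT-LINEAR SYSTEM OVER R.E. SETS IS R.E. -/
theorem RESet.rl [Finite σ] {μ : Mark α M} {T : σ → π → Set M} {E : σ → σ → π → Set M}
    (hT : ∀ s, RESet μ (T s)) (hE : ∀ s s', RESet μ (E s s')) (s : σ) :
    RESet μ (fun p => {x | RL (fun s => T s p) (fun s s' => E s s' p) s x}) := by
  classical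
  cases nonempty_fintype σ
  let G : Gram (σ ⊕ σ × σ) α :=
    { cat := (Finset.univ : Finset (σ × σ)).toList.map
        (fun y => (Sum.inl y.1, Sum.inr y, Sum.inl y.2))
      sub := []
      mor := []
      th := fun a => [a] }
  have hth : Primrec G.th := Primrec.list_cons.comp Primrec.id (Primrec.const [])
  let Ls : List ((σ ⊕ σ × σ) × (π → List α → Prop)) :=
    (Finset.univ : Finset σ).toList.map (fun s => (Sum.inl s, fun p w => μ.ev w ∈ T s p)) ++
    (Finset.univ : Finset (σ × σ)).toList.map
      (fun y => (Sum.inr y, fun p w => μ.ev w ∈ E y.1 y.2 p))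
  have hLs : ∀ y ∈ Ls, RELang y.2 := by
    intro y hy
    rcases List.mem_append.1 hy with hy | hy
    · obtain ⟨s, -, rfl⟩ := List.mem_map.1 hy
      exact hT s
    · obtain ⟨z, -, rfl⟩ := List.mem_map.1 hy
      exact hE z.1 z.2
  refine (RESet.of_lang (μ := μ) (der_relang G hth Ls hLs (Sum.inl s))).of_eq (fun p => ?_)
  ext x
  constructor
  · rintro ⟨w, hw, rfl⟩
    let I : (σ ⊕ σ × σ) → Set M := fun i =>
      match i with
      | Sum.inl s => {x | RL (fun s => T s p) (fun s s' => E s s' p) s x}
      | Sum.inr y => E y.1 y.2 p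
    have := Der.sound (ν := μ.ν) (MonoidHom.id M) (fun a => by simp [G, val]) I ?_ ?_ ?_ ?_ hw
    · exact this
    · rintro i w ⟨y, hy, rfl, hw⟩
      rcases List.mem_append.1 hy with hy | hy
      · obtain ⟨s, -, rfl⟩ := List.mem_map.1 hy
        exact RL.last hw
      · obtain ⟨z, -, rfl⟩ := List.mem_map.1 hy
        exact hw
    · intro i a b h x hx y hy
      obtain ⟨z, -, hz⟩ := List.mem_map.1 h
      simp only [Prod.mk.injEq] at hz
      obtain ⟨rfl, rfl, rfl⟩ := hz
      exact RL.step hx hy
    · intro i a h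
      simp [G] at h
    · intro i a h
      simp [G] at h
  · intro hx
    change RL (fun s => T s p) (fun s s' => E s s' p) s x at hx
    induction hx with
    | @last s x h =>
      obtain ⟨w, rfl⟩ := μ.exists_ev x
      refine ⟨w, Der.base ⟨(Sum.inl s, fun p w => μ.ev w ∈ T s p), ?_, rfl, h⟩, rfl⟩
      exact List.mem_append_left _ (List.mem_map.2 ⟨s, by simp, rfl⟩)
    | @step s s' e y he _ ih =>
      obtain ⟨v, hv, rfl⟩ := ih
      obtain ⟨u, rfl⟩ := μ.exists_ev e
      refine ⟨u ++ v, Der.cat (a := Sum.inr (s, s')) (b := Sum.inl s') ?_ (Der.base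
        ⟨(Sum.inr (s, s'), fun p w => μ.ev w ∈ E s s' p), ?_, rfl, he⟩) hv, μ.ev_append u v⟩
      · exact List.mem_map.2 ⟨(s, s'), by simp, rfl⟩
      · exact List.mem_append_right _ (List.mem_map.2 ⟨(s, s'), by simp, rfl⟩)

/-- The submonoid generated by an r.e. set. -/
theorem RESet.mclosure {μ : Mark α M} {S : π → Set M} (h : RESet μ S) :
    RESet μ (fun p => (Submonoid.closure (S p) : Set M)) := by
  refine (RESet.rl (σ := Unit) (T := fun _ _ => {1}) (E := fun _ _ => S)
    (fun _ => RESet.singleton 1) (fun _ _ => h) ()).of_eq (fun p => ?_)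
  ext x
  constructor
  · intro hx
    change RL _ _ () x at hx
    generalize () = u at hx
    induction hx with
    | last h => rw [Set.mem_singleton_iff.1 h]; exact one_mem _
    | step he _ ih => exact mul_mem (Submonoid.subset_closure he) ih
  · intro hx
    induction hx using Submonoid.closure_induction_left with
    | one => exact RL.last rfl
    | mul_left e he y _ ih => exact RL.step he ih

/-- The subgroup generated by an r.e. set. -/
theorem RESet.closure {μ : Mark α M} {S : π → Set M} (h : RESet μ S) :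
    RESet μ (fun p => (Subgroup.closure (S p) : Set M)) :=
  (RESet.mclosure (h.union h.inv)).of_eq (fun p => by
    rw [← Subgroup.closure_toSubmonoid]; rfl)

/-- A finitely generated subgroup. -/
theorem RESet.of_fg {μ : Mark α M} {K : Subgroup M} (hK : K.FG) : RESet μ (fun _ : π => (K : Set M)) := by
  obtain ⟨T, hT, hfin⟩ := (Subgroup.fg_iff K).1 hK
  exact (RESet.closure (RESet.finite (μ := μ) (π := π) hfin)).of_eq (fun _ => by rw [hT])

end Claimed.Agent.R152.EV
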