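/-
Row 152, module EV (helper531): finitely presented groups have r.e. positive word problem, hence markings.
-/
import Claimed.Agent.R152.EV.RL
import Claimed.Agent.R152.A.Cert

set_option autoImplicit false

namespace Claimed.Agent.R152.EV

open Claimed.Agent.R152.RE Claimed.Agent.R152.A

variable {α : Type*} [Primcodable α] {M : Type*} [Group M]

/-- THE POSITIVE WORD PROBLEM OF A FINITELY PRESENTED GROUP IS R.E., for any finite family of elements. -/
theorem re_wp_of_fp (hfp : Group.IsFinitelyPresented M) [Finite α] (ν : α → M) :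
    REPred fun w : List α => val ν w = 1 := by
  obtain ⟨m, φ, hφ, S, hSfin, hS⟩ := hfp.out
  have hV : ∀ a, ∃ v : W m, φ (FreeGroup.mk v) = ν a := fun a => by
    obtain ⟨x, hx⟩ := hφ (ν a)
    exact ⟨x.toWord, by rw [FreeGroup.mk_toWord, hx]⟩
  choose V hV using hV
  let R : List (W m) := hSfin.toFinset.toList.map FreeGroup.toWord
  have hR : {x | ∃ w ∈ R, FreeGroup.mk w = x} = S := by
    ext x
    simp only [R, List.mem_map, Finset.mem_toList, Set.Finite.mem_toFinset, Set.mem_ofPred_eq]
    constructor
    · rintro ⟨_, ⟨y, hy, rfl⟩, rfl⟩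
      rwa [FreeGroup.mk_toWord]
    · intro hx
      exact ⟨_, ⟨x, hx, rfl⟩, FreeGroup.mk_toWord⟩
  have key : ∀ w : List α, φ (FreeGroup.mk (w.flatMap V)) = val ν w := by
    intro w
    induction w with
    | nil => simp [← FreeGroup.one_eq_mk]
    | cons a w ih => rw [List.flatMap_cons, ← FreeGroup.mul_mk, map_mul, ih, hV, val_cons]
  have hsub : Primrec fun w : List α => w.flatMap V :=
    Primrec.list_flatMap Primrec.id ((Primrec.dom_finite V).comp Primrec.snd).to₂
  refine rePred_of_exists (fun (w : List α) (c : Cert m) => check R (w.flatMap V) c) ?_ fun w => ?_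
  · exact (primrec_check.comp (Primrec.pair (Primrec.pair (Primrec.const R)
      (hsub.comp Primrec.fst)) Primrec.snd)).to_comp
  · rw [← key, ← check_iff, normalClosure_relSeq, hR, hS, MonoidHom.mem_ker]

/-- A marking of a finitely presented group by a finite alphabet with formal inverses. -/
def Mark.ofFP (hfp : Group.IsFinitelyPresented M) [Finite α] (ν : α → M) (inv : α → α)
    (hinv : ∀ a, ν (inv a) = (ν a)⁻¹) (hsurj : ∀ x : M, ∃ w, val ν w = x) : Mark α M where
  ν := ν
  inv := inv
  ν_inv := hinv
  surj := hsurj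
  inv_primrec := Primrec.dom_finite inv
  wp := re_wp_of_fp hfp ν

/-- A finitely generated group which embeds in a finitely presented group `N` inherits the r.e. positive word problem. -/
def Mark.ofEmb {N : Type*} [Group N] (hfp : Group.IsFinitelyPresented N) (e : M →* N)
    (he : Function.Injective e) [Finite α] (ν : α → M) (inv : α → α)
    (hinv : ∀ a, ν (inv a) = (ν a)⁻¹) (hsurj : ∀ x : M, ∃ w, val ν w = x) : Mark α M where
  ν := ν
  inv := inv
  ν_inv := hinv
  surj := hsurj
  inv_primrec := Primrec.dom_finite inv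
  wp := (re_wp_of_fp hfp (fun a => e (ν a))).of_eq (fun w => by
    have h : val (fun a => e (ν a)) w = e (val ν w) := by
      induction w with
      | nil => simp
      | cons a w ih => rw [val_cons, val_cons, map_mul, ih]
    rw [h, map_eq_one_iff e he])

/-- Signed letters. -/
def sgn {β : Type*} (g : β → M) (a : β × Bool) : M := if a.2 then g a.1 else (g a.1)⁻¹

theorem sgn_not {β : Type*} (g : β → M) (a : β × Bool) : sgn g (a.1, !a.2) = (sgn g a)⁻¹ := by
  rcases a with ⟨b, _ | _⟩ <;> simp [sgn]

theorem exists_val_sgn {β : Type*} (g : β → M) (hg : Subgroup.closure (Set.range g) = ⊤) (x : M) :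
    ∃ w, val (sgn g) w = x := by
  have hx : x ∈ Subgroup.closure (Set.range g) := by rw [hg]; trivial
  induction hx using Subgroup.closure_induction with
  | mem y hy =>
    obtain ⟨b, rfl⟩ := hy
    exact ⟨[(b, true)], by simp [val, sgn]⟩
  | one => exact ⟨[], rfl⟩
  | mul a b _ _ ha hb =>
    obtain ⟨u, rfl⟩ := ha
    obtain ⟨v, rfl⟩ := hb
    exact ⟨u ++ v, val_append _ u v⟩
  | inv a _ ha =>
    obtain ⟨u, rfl⟩ := ha
    refine ⟨(u.map fun a => (a.1, !a.2)).reverse, ?_⟩
    clear * -
    induction u with
    | nil => simp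
    | cons a u ih =>
      rw [List.map_cons, List.reverse_cons, val_append, ih, val_cons, val_cons, val_nil, mul_one,
        sgn_not, mul_inv_rev]

/-- The marking of a finitely presented group by a finite generating family. -/
def Mark.ofGens {β : Type*} [Primcodable β] [Finite β] (hfp : Group.IsFinitelyPresented M) (g : β → M)
    (hg : Subgroup.closure (Set.range g) = ⊤) : Mark (β × Bool) M :=
  Mark.ofFP hfp (sgn g) (fun a => (a.1, !a.2)) (sgn_not g) (exists_val_sgn g hg)

end Claimed.Agent.R152.EV
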