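/-
Row 152, module EV (helper531).  THE MARKINGS of `Hs`, `Hac`, `Bs`, `K0` used by all evidence files, and the transport lemmas.
`muS : Mark HLet Hs` (`muS.ev = evalH`), `muAc : Mark HLet Hac` (letters transported by `iso.symm`), `muB : Mark ((Fin k ⊕ Unit) × Bool) Bs`, `muK : Mark KLet K0`.
-/
import Claimed.Agent.R152.HW.Hac
import Claimed.Agent.R152.HW.Guard
import Claimed.Agent.R152.EV.MarkFP

set_option autoImplicit false

noncomputable section

namespace Claimed.Agent.R152.EV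

open Claimed.Agent.R152.H Claimed.Agent.R152.HW Claimed.Agent.R152.HW.Aff SemidirectProduct

variable (𝔐 : Aff)

/-- The marking of `Hs` by `genH`. -/
def muS : Mark 𝔐.HLet 𝔐.Hs :=
  Mark.ofFP Inp.Hs_isFinitelyPresented genH (fun y => (y.1, !y.2)) guard_genH_inv evalH_surjective

theorem muS_ev (W : List 𝔐.HLet) : (muS 𝔐).ev W = evalH W := rfl

/-- The marking of `Hac`: the letters of `Hs` transported by `iso.symm`. -/
def muAc : Mark 𝔐.HLet 𝔐.Hac :=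
  Mark.ofFP Hac_isFinitelyPresented (fun y => 𝔐.iso.symm (genH y)) (fun y => (y.1, !y.2))
    (fun y => by rw [guard_genH_inv, map_inv])
    (fun x => by
      obtain ⟨W, hW⟩ := evalH_surjective (𝔐.iso x)
      refine ⟨W, ?_⟩
      have h : ∀ W : List 𝔐.HLet, val (fun y => 𝔐.iso.symm (genH y)) W = 𝔐.iso.symm (evalH W) := by
        intro W
        induction W with
        | nil => simp [evalH]
        | cons y W ih => rw [val_cons, ih, ← map_mul]; rfl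
      rw [h, hW, MulEquiv.symm_apply_apply])

theorem muAc_ev (W : List 𝔐.HLet) : (muAc 𝔐).ev W = 𝔐.iso.symm (evalH W) := by
  induction W with
  | nil => simp [evalH]
  | cons y W ih =>
    rw [Mark.ev_cons, ih]
    show 𝔐.iso.symm (genH y) * _ = _
    rw [← map_mul]
    rfl

/-- The marking of `K0` by `genK`. -/
def muK : Mark 𝔐.KLet 𝔐.K0 :=
  Mark.ofFP K0_isFinitelyPresented genK (fun y => (y.1, !y.2)) guard_genK_inv evalK_surjective

theorem muK_ev (W : List 𝔐.KLet) : (muK 𝔐).ev W = evalK W := rfl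

/-- The generators of `Bs`. -/
def genB : Fin 𝔐.k ⊕ Unit → 𝔐.Bs := Sum.elim (fun i => xb (Pi.single i 1)) (fun _ => Semi.t)

theorem Bs_isFinitelyPresented : Group.IsFinitelyPresented 𝔐.Bs := by
  have := Q_isFinitelyPresented (𝔐 := 𝔐)
  exact Semi.isFinitelyPresented ((Subgroup.fg_iff _).2 ⟨∅, Subgroup.closure_empty, Set.finite_empty⟩)

/-- `Bs` is generated by the `xb (single i 1)` and `t`.  (`Semi.closure_inr_t`; `Q` is generated by the `ofAdd (single i 1)`.) -/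
theorem closure_genB : Subgroup.closure (Set.range (genB 𝔐)) = ⊤ := by
  set S := Subgroup.closure (Set.range (genB 𝔐)) with hS
  have hsingle : ∀ (i : Fin 𝔐.k) (n : ℤ), (xb (Pi.single i n) : 𝔐.Bs) ∈ S := by
    intro i n
    have h1 : (xb (Pi.single i n) : 𝔐.Bs) = (xb (Pi.single i 1)) ^ n := by
      unfold xb
      rw [← map_zpow, ← ofAdd_zsmul]
      congr 2
      funext j
      by_cases hj : j = i
      · subst hj; simp
      · simp [Pi.single_eq_of_ne hj]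
    rw [h1]
    exact S.zpow_mem (Subgroup.subset_closure ⟨Sum.inl i, rfl⟩) n
  have hsum : ∀ (s : Finset (Fin 𝔐.k)) (v : 𝔐.Vec),
      (xb (∑ i ∈ s, Pi.single i (v i)) : 𝔐.Bs) ∈ S := by
    intro s v
    induction s using Finset.induction_on with
    | empty =>
      have : (xb (0 : 𝔐.Vec) : 𝔐.Bs) = 1 := by
        unfold xb
        rw [ofAdd_zero, map_one]
      simpa [this] using S.one_mem
    | insert a s ha ih =>
      rw [Finset.sum_insert ha, xb_add]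
      exact S.mul_mem (hsingle a _) ih
  have hx : ∀ v : 𝔐.Vec, (xb v : 𝔐.Bs) ∈ S := by
    intro v
    have h := hsum Finset.univ v
    rwa [Finset.univ_sum_single] at h
  rw [eq_top_iff, ← Semi.closure_inr_t, Subgroup.closure_le]
  rintro y (⟨q, rfl⟩ | hy)
  · exact hx (Multiplicative.toAdd q)
  · rw [Set.mem_singleton_iff.1 hy]
    exact Subgroup.subset_closure ⟨Sum.inr (), rfl⟩

/-- The marking of `Bs`. -/
def muB : Mark ((Fin 𝔐.k ⊕ Unit) × Bool) 𝔐.Bs :=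
  Mark.ofGens (Bs_isFinitelyPresented 𝔐) (genB 𝔐) (closure_genB 𝔐)

variable {𝔐} {π : Type*} [Primcodable π]

/-- Transport `Hac → Hs`. -/
theorem RESet.toHs {S : π → Set 𝔐.Hac} (h : RESet (muAc 𝔐) S) :
    RESet (muS 𝔐) (fun p => (𝔐.iso : 𝔐.Hac → 𝔐.Hs) '' S p) :=
  RESet.map (𝔐.iso : 𝔐.Hac →* 𝔐.Hs) h

/-- Transport `Hs → Hac`. -/
theorem RESet.toHac {S : π → Set 𝔐.Hs} (h : RESet (muS 𝔐) S) :
    RESet (muAc 𝔐) (fun p => (𝔐.iso : 𝔐.Hac → 𝔐.Hs) ⁻¹' S p) :=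
  RESet.comap (𝔐.iso : 𝔐.Hac →* 𝔐.Hs) h

/-- Subsets of `Bs` seen in `Hac`. -/
theorem RESet.ofBs {S : π → Set 𝔐.Bs} (h : RESet (muB 𝔐) S) :
    RESet (muAc 𝔐) (fun p => (MHNN.of : 𝔐.Bs → 𝔐.Hac) '' S p) :=
  RESet.map (MHNN.of : 𝔐.Bs →* 𝔐.Hac) h

/-- Traces on `Bs` of subsets of `Hac`. -/
theorem RESet.toBs {S : π → Set 𝔐.Hac} (h : RESet (muAc 𝔐) S) :
    RESet (muB 𝔐) (fun p => (MHNN.of : 𝔐.Bs → 𝔐.Hac) ⁻¹' S p) :=
  RESet.comap (MHNN.of : 𝔐.Bs →* 𝔐.Hac) h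

/-- Subsets of `K0` seen in `Hs`. -/
theorem RESet.ofK0 {S : π → Set 𝔐.K0} (h : RESet (muK 𝔐) S) :
    RESet (muS 𝔐) (fun p => (inr : 𝔐.K0 → 𝔐.Hs) '' S p) :=
  RESet.map (inr : 𝔐.K0 →* 𝔐.Hs) h

/-- Traces on `K0` of subsets of `Hs`. -/
theorem RESet.toK0 {S : π → Set 𝔐.Hs} (h : RESet (muS 𝔐) S) :
    RESet (muK 𝔐) (fun p => (inr : 𝔐.K0 → 𝔐.Hs) ⁻¹' S p) :=
  RESet.comap (inr : 𝔐.K0 →* 𝔐.Hs) h

end Claimed.Agent.R152.EV
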