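/-
Row 152, module EV (helper531).  ADAPTERS: change of marking; from `RESet` to `CL.Rep`; the record `CL.EvHs` from four `RESet`s on `muS`.
-/
import Claimed.Agent.R152.EV.Marks
import Claimed.Agent.R152.CL.Inst

set_option autoImplicit false

noncomputable section

namespace Claimed.Agent.R152.EV

open Claimed.Agent.R152.H Claimed.Agent.R152.HW Claimed.Agent.R152.HW.Aff Claimed.Agent.R152.RE
open scoped Pointwise

variable {α β π : Type*} [Primcodable α] [Primcodable β] [Primcodable π] {M : Type*} [Group M]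

/-- `RESet` does not depend on the marking. -/
theorem RESet.change {μ : Mark α M} (μ' : Mark β M) [Finite β] {S : π → Set M} (h : RESet μ S) :
    RESet μ' S :=
  RESet.comap (μ := μ') (μ' := μ) (MonoidHom.id M) h

theorem ofGens_ev {n : ℕ} (hfp : Group.IsFinitelyPresented M) (gen : Fin n → M)
    (hgen : Subgroup.closure (Set.range gen) = ⊤) (w : List (Fin n × Bool)) :
    (Mark.ofGens hfp gen hgen).ev w = CL.ev gen w := rfl

/-- From `RESet` to `CL.Rep`. -/
theorem rep_of_reSet {μ : Mark α M} {n : ℕ} (hfp : Group.IsFinitelyPresented M) (gen : Fin n → M)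
    (hgen : Subgroup.closure (Set.range gen) = ⊤) {S : Set M} (h : RESet μ (fun _ : Unit => S)) :
    CL.Rep gen S := by
  have h' : RESet (Mark.ofGens hfp gen hgen) (fun _ : Unit => S) := h.change _
  refine ⟨fun _ w => CL.ev gen w ∈ S, h', fun w hw => hw, fun x hx => ?_⟩
  obtain ⟨w, rfl⟩ := CL.exists_ev hgen x
  exact ⟨w, hx, rfl⟩

variable (𝔐 : Aff)

/-- Number of generators of `Hs`. -/
def nH : ℕ := Fintype.card (Fin 𝔐.k ⊕ Fin 𝔐.nL ⊕ Unit)

/-- The generators of `Hs`, numbered. -/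
def genFin : Fin (nH 𝔐) → 𝔐.Hs := fun i => genH ((Fintype.equivFin (Fin 𝔐.k ⊕ Fin 𝔐.nL ⊕ Unit)).symm i, true)

theorem closure_genFin : Subgroup.closure (Set.range (genFin 𝔐)) = ⊤ := by
  rw [eq_top_iff]
  intro h _
  obtain ⟨W, rfl⟩ := evalH_surjective h
  induction W with
  | nil => exact one_mem _
  | cons y W ih =>
    have e : (evalH (y :: W) : 𝔐.Hs) = genH y * evalH W := by
      unfold evalH
      rw [List.map_cons, List.prod_cons]
    rw [e]
    refine mul_mem ?_ (ih trivial)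
    have h1 : (genH (y.1, true) : 𝔐.Hs) ∈ Subgroup.closure (Set.range (genFin 𝔐)) :=
      Subgroup.subset_closure ⟨Fintype.equivFin _ y.1, by simp [genFin]⟩
    rcases y with ⟨a, _ | _⟩
    · have := guard_genH_inv (𝔐 := 𝔐) (a, true)
      simp only [Bool.not_true] at this
      rw [this]
      exact inv_mem h1
    · exact h1

variable {𝔐}

/-- The record needed by `CL/Inst.lean`. -/
def evHs (I : Inp 𝔐) (D N : ℕ) (ξ : 𝔐.Vec)
    (h1 : RESet (muS 𝔐) (fun _ : Unit => {h : 𝔐.Hs | h ≠ 1}))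
    (hK : RESet (muS 𝔐) (fun _ : Unit => (I.K : Set 𝔐.Hs)ᶜ))
    (hP : RESet (muS 𝔐) (fun _ : Unit => (I.P D N ξ : Set 𝔐.Hs)ᶜ))
    (hKP : RESet (muS 𝔐) (fun _ : Unit => ((I.K : Set 𝔐.Hs) * (I.P D N ξ : Set 𝔐.Hs))ᶜ)) :
    CL.EvHs I D N ξ where
  n := nH 𝔐
  gen := genFin 𝔐
  gen_top := closure_genFin 𝔐
  rep_one := rep_of_reSet Inp.Hs_isFinitelyPresented _ (closure_genFin 𝔐) h1
  rep_K := rep_of_reSet Inp.Hs_isFinitelyPresented _ (closure_genFin 𝔐) hK
  rep_P := rep_of_reSet Inp.Hs_isFinitelyPresented _ (closure_genFin 𝔐) hP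
  rep_PK := by
    refine rep_of_reSet Inp.Hs_isFinitelyPresented _ (closure_genFin 𝔐) (hKP.inv.of_eq fun _ => ?_)
    ext h
    simp only [Set.mem_inv, Set.mem_compl_iff, Set.mem_ofPred_eq, Set.mem_mul, SetLike.mem_coe]
    constructor
    · rintro hh ⟨p, hp, k, hk, rfl⟩
      exact hh ⟨k⁻¹, inv_mem hk, p⁻¹, inv_mem hp, by simp⟩
    · rintro hh ⟨k, hk, p, hp, e⟩
      exact hh ⟨p⁻¹, inv_mem hp, k⁻¹, inv_mem hk, by rw [← mul_inv_rev, e, inv_inv]⟩

end Claimed.Agent.R152.EV
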