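/-
Row 152, module EV (helper531).  DECIDABLE SETS OF VECTORS INSIDE A MARKED GROUP.
`e : 𝔐.Q →* M` (`𝔐.Q = Multiplicative (Fin k → ℤ)`), `XS e Z = {e (ofAdd v) | v ∈ Z}`.
`DecVec μ e Z`: `XS e (Z p)` and `XS e (Z p)ᶜ` are r.e. families.  Lattices `Lt c = {c * u}`, their cosets, singletons, domains and ranges of the letters of
an affine machine are `DecVec`; `DecVec` is closed under Boolean operations and translations.  NO ARITHMETIC ON CODES: only the calculus of `RESet`.
STATEMENTS ARE FROZEN. Proofs are in the docstrings.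
-/
import Claimed.Agent.R152.HW.Aff
import Claimed.Agent.R152.EV.RL

set_option autoImplicit false

namespace Claimed.Agent.R152.EV

open Claimed.Agent.R152.H Claimed.Agent.R152.HW Claimed.Agent.R152.HW.Aff Claimed.Agent.R152.RE
open scoped Pointwise

/-- Finite products of r.e. families (induction on `l`; `(1 : Set M) = {1}`, `RESet.singleton`, `RESet.mul`). -/
theorem RESet.list_prod {α π : Type*} [Primcodable α] [Primcodable π] {M : Type*} [Group M] {μ : Mark α M}
    {ι : Type*} (l : List ι) {T : ι → π → Set M} (h : ∀ i ∈ l, RESet μ (T i)) :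
    RESet μ (fun p => (l.map (fun i => T i p)).prod) := by
  induction l with
  | nil => exact (RESet.singleton (μ := μ) (π := π) (1 : M)).of_eq (fun p => by simp [Set.singleton_one])
  | cons i l ih =>
    exact ((h i List.mem_cons_self).mul (ih fun j hj => h j (List.mem_cons_of_mem _ hj))).of_eq
      (fun p => by simp)

namespace Lat

variable {𝔐 : Aff} {M : Type*} [Group M] {α π : Type*} [Primcodable α] [Primcodable π] {μ : Mark α M}

/-- The image of a set of vectors. -/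
def XS (e : 𝔐.Q →* M) (Z : Set 𝔐.Vec) : Set M := (fun v => e (Multiplicative.ofAdd v)) '' Z

/-- The lattice `c * ℤ^k`. -/
def Lt (c : Fin 𝔐.k → ℕ) : Set 𝔐.Vec := {v | ∃ u, v = sc c u}

/-- A family of sets of vectors which is r.e. together with its complement. -/
structure DecVec (μ : Mark α M) (e : 𝔐.Q →* M) (Z : π → Set 𝔐.Vec) : Prop where
  pos : RESet μ (fun p => XS e (Z p))
  neg : RESet μ (fun p => XS e (Z p)ᶜ)

variable {e : 𝔐.Q →* M}

/-! ### Boolean operations and translations -/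

theorem XS_union (Z Z' : Set 𝔐.Vec) : XS e (Z ∪ Z') = XS e Z ∪ XS e Z' := Set.image_union _ _ _

theorem XS_inter (he : Function.Injective e) (Z Z' : Set 𝔐.Vec) : XS e (Z ∩ Z') = XS e Z ∩ XS e Z' :=
  Set.image_inter (he.comp Multiplicative.ofAdd.injective)

/-- `e (a + v) = e a * e v`. -/
theorem XS_translate (a : 𝔐.Vec) (Z : Set 𝔐.Vec) :
    XS e {v | v - a ∈ Z} = {e (Multiplicative.ofAdd a)} * XS e Z := by
  ext x
  constructor
  · rintro ⟨v, hv, rfl⟩
    refine Set.mem_mul.2 ⟨_, rfl, _, ⟨v - a, hv, rfl⟩, ?_⟩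
    show e (Multiplicative.ofAdd a) * e (Multiplicative.ofAdd (v - a)) = e (Multiplicative.ofAdd v)
    rw [← map_mul, ← ofAdd_add, add_sub_cancel]
  · intro hx
    obtain ⟨_, rfl, _, ⟨w, hw, rfl⟩, rfl⟩ := Set.mem_mul.1 hx
    refine ⟨a + w, ?_, ?_⟩
    · show a + w - a ∈ Z
      rw [add_sub_cancel_left]
      exact hw
    · show e (Multiplicative.ofAdd (a + w)) = e (Multiplicative.ofAdd a) * e (Multiplicative.ofAdd w)
      rw [ofAdd_add, map_mul]

theorem DecVec.of_eq {Z Z' : π → Set 𝔐.Vec} (h : DecVec μ e Z) (H : ∀ p, Z p = Z' p) : DecVec μ e Z' :=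
  ⟨h.pos.of_eq (fun p => by rw [H p]), h.neg.of_eq (fun p => by rw [H p])⟩

theorem DecVec.compl {Z : π → Set 𝔐.Vec} (h : DecVec μ e Z) : DecVec μ e (fun p => (Z p)ᶜ) :=
  ⟨h.neg, h.pos.of_eq (fun p => by rw [compl_compl])⟩

theorem DecVec.union (he : Function.Injective e) {Z Z' : π → Set 𝔐.Vec} (h : DecVec μ e Z)
    (h' : DecVec μ e Z') : DecVec μ e (fun p => Z p ∪ Z' p) :=
  ⟨(h.pos.union h'.pos).of_eq (fun p => (XS_union _ _).symm),
    (h.neg.inter h'.neg).of_eq (fun p => by rw [Set.compl_union, XS_inter he])⟩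

theorem DecVec.inter (he : Function.Injective e) {Z Z' : π → Set 𝔐.Vec} (h : DecVec μ e Z)
    (h' : DecVec μ e Z') : DecVec μ e (fun p => Z p ∩ Z' p) :=
  ⟨(h.pos.inter h'.pos).of_eq (fun p => (XS_inter he _ _).symm),
    (h.neg.union h'.neg).of_eq (fun p => by rw [Set.compl_inter, XS_union])⟩

/-- (`{v | v - a ∈ Z}ᶜ = {v | v - a ∈ Zᶜ}`, `XS_translate`, `RESet.mul`.) -/
theorem DecVec.translate {a : π → 𝔐.Vec} (ha : RESet μ (fun p => {e (Multiplicative.ofAdd (a p))}))
    {Z : π → Set 𝔐.Vec} (h : DecVec μ e Z) : DecVec μ e (fun p => {v | v - a p ∈ Z p}) := by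
  refine ⟨(ha.mul h.pos).of_eq (fun p => (XS_translate _ _).symm),
    (ha.mul h.neg).of_eq (fun p => ?_)⟩
  rw [← XS_translate]
  rfl

/-- Finite intersections over a subset of a finite type (induction over a list enumerating the type, or: `pos` by `RESet.biInter_finite` and injectivity,
`neg` by `RESet.biUnion_finite`; `XS e (⋂ ..) = ⋂ XS e ..` needs care when `J = ∅`: then both sides must be `XS e univ`, so intersect with `XS e univ`. Simplest: induction on a list `L`
for `fun p => {v | ∀ i ∈ L, v ∈ Z i p}` with `DecVec.inter`, starting from `decVec_univ`.) -/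
theorem DecVec.biInter (he : Function.Injective e) (huniv : DecVec μ e (fun _ : π => (Set.univ : Set 𝔐.Vec)))
    {ι : Type*} [Finite ι] (J : Set ι) {Z : ι → π → Set 𝔐.Vec} (h : ∀ i ∈ J, DecVec μ e (Z i)) :
    DecVec μ e (fun p => {v | ∀ i ∈ J, v ∈ Z i p}) := by
  classical
  cases nonempty_fintype ι
  have key : ∀ L : List ι, (∀ i ∈ L, DecVec μ e (Z i)) →
      DecVec μ e (fun p => {v | ∀ i ∈ L, v ∈ Z i p}) := by
    intro L
    induction L with
    | nil => intro _; exact huniv.of_eq (fun p => by ext v; simp)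
    | cons i L ih =>
      intro hL
      exact ((hL i List.mem_cons_self).inter he
        (ih fun j hj => hL j (List.mem_cons_of_mem _ hj))).of_eq (fun p => by ext v; simp)
  exact (key ((Finset.univ : Finset ι).filter (· ∈ J)).toList
    (fun i hi => h i (by simpa using hi))).of_eq (fun p => by ext v; simp)

/-! ### Lattices -/

/-- The generators. -/
def gi (e : 𝔐.Q →* M) (i : Fin 𝔐.k) : M := e (Multiplicative.ofAdd (Pi.single i 1))

theorem gi_zpow (i : Fin 𝔐.k) (r : ℤ) : gi e i ^ r = e (Multiplicative.ofAdd (Pi.single i r)) := by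
  rw [gi, ← map_zpow, ← ofAdd_zsmul]
  congr 2
  funext j
  by_cases hj : j = i
  · subst hj; simp
  · simp [hj]

theorem mem_Lt_iff (c : Fin 𝔐.k → ℕ) (v : 𝔐.Vec) : v ∈ Lt c ↔ ∀ i, (c i : ℤ) ∣ v i := by
  constructor
  · rintro ⟨u, rfl⟩ i
    exact ⟨u i, rfl⟩
  · intro h
    choose u hu using h
    exact ⟨u, funext hu⟩

/-- `XS e (Lt c)` is the f.g. subgroup `(scHom c).range.map e`  (`Group.FG 𝔐.Q` as in the proof of `Aff.A_fg`; `Group.fg_range`, `Subgroup.FG.map`, `RESet.of_fg`). -/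
theorem re_Lt (c : Fin 𝔐.k → ℕ) : RESet μ (fun _ : π => XS e (Lt c)) := by
  obtain ⟨n, ψ, hψ, -⟩ := (Q_isFinitelyPresented (𝔐 := 𝔐)).out
  have h1 : Group.FG 𝔐.Q := Group.fg_of_surjective hψ
  have h2 : ((e.comp (scHom c)).range).FG :=
    (Group.fg_iff_subgroup_fg _).1 (Group.fg_range (e.comp (scHom c)))
  refine (RESet.of_fg (μ := μ) (π := π) h2).of_eq (fun _ => ?_)
  ext x
  constructor
  · rintro ⟨q, rfl⟩
    exact ⟨sc c (Multiplicative.toAdd q), ⟨_, rfl⟩, rfl⟩
  · rintro ⟨_, ⟨u, rfl⟩, rfl⟩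
    exact ⟨Multiplicative.ofAdd u, rfl⟩

/-- `{g ^ r | r : ℤ, ¬ c ∣ r}` is r.e.: it is `{g ^ n | n % c ≠ 0} ∪ {(g⁻¹) ^ n | n % c ≠ 0}` (`n : ℕ`; note `n % 0 = n`); `RESet.pow`; the predicate `fun x : π × ℕ => x.2 % c ≠ 0` is
`PrimrecPred` (`Primrec.nat_mod`, `Primrec.eq`, `PrimrecPred.not`), `re_of_primrecPred`. -/
theorem re_zpow_not_dvd (g : M) (c : ℕ) : RESet μ (fun _ : π => {x | ∃ r : ℤ, ¬ (c : ℤ) ∣ r ∧ x = g ^ r}) := by
  have hP : REPred fun x : π × ℕ => x.2 % c ≠ 0 := by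
    apply re_of_primrecPred
    exact (Primrec.eq.comp (Primrec.nat_mod.comp Primrec.snd (Primrec.const c))
      (Primrec.const 0)).not
  refine ((RESet.pow (μ := μ) g (P := fun _ n => n % c ≠ 0) hP).union
    (RESet.pow (μ := μ) g⁻¹ (P := fun _ n => n % c ≠ 0) hP)).of_eq (fun _ => ?_)
  have hdvd : ∀ n : ℕ, n % c ≠ 0 ↔ ¬ (c : ℤ) ∣ (n : ℤ) := by
    intro n
    rw [Int.natCast_dvd_natCast, Nat.dvd_iff_mod_eq_zero]
  ext x
  constructor
  · rintro (⟨n, hn, rfl⟩ | ⟨n, hn, rfl⟩)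
    · exact ⟨n, (hdvd n).1 hn, (zpow_natCast g n).symm⟩
    · refine ⟨-(n : ℤ), ?_, ?_⟩
      · rw [dvd_neg]; exact (hdvd n).1 hn
      · rw [zpow_neg, zpow_natCast, inv_pow]
  · rintro ⟨r, hr, rfl⟩
    rcases Int.eq_nat_or_neg r with ⟨n, rfl | rfl⟩
    · exact Or.inl ⟨n, (hdvd n).2 hr, zpow_natCast g n⟩
    · refine Or.inr ⟨n, (hdvd n).2 (by rwa [dvd_neg] at hr), ?_⟩
      rw [zpow_neg, zpow_natCast, inv_pow]

/-- `v ∉ Lt c` iff `v = single i r + w` with `¬ c i ∣ r`, `w ∈ Lt (update 1 i (c i))`  (`r = v i`, `w = update v i 0`). -/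
theorem XS_Lt_compl (c : Fin 𝔐.k → ℕ) :
    XS e (Lt c)ᶜ = ⋃ i : Fin 𝔐.k, {x | ∃ r : ℤ, ¬ (c i : ℤ) ∣ r ∧ x = gi e i ^ r} *
      XS e (Lt (Function.update (fun _ => 1) i (c i))) := by
  ext x
  simp only [Set.mem_iUnion]
  constructor
  · rintro ⟨v, hv, rfl⟩
    have hv' : ¬ ∀ i, (c i : ℤ) ∣ v i := fun h => hv ((mem_Lt_iff c v).2 h)
    push Not at hv'
    obtain ⟨i, hi⟩ := hv'
    refine ⟨i, Set.mem_mul.2 ⟨gi e i ^ v i, ⟨v i, hi, rfl⟩, _,
      ⟨Function.update v i 0, ?_, rfl⟩, ?_⟩⟩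
    · rw [mem_Lt_iff]
      intro j
      by_cases hj : j = i
      · subst hj; simp
      · simp [hj]
    · show gi e i ^ v i * e (Multiplicative.ofAdd (Function.update v i 0)) = e (Multiplicative.ofAdd v)
      rw [gi_zpow, ← map_mul, ← ofAdd_add]
      congr 2
      funext j
      by_cases hj : j = i
      · subst hj; simp
      · simp [hj]
  · rintro ⟨i, hx⟩
    obtain ⟨_, ⟨r, hr, rfl⟩, _, ⟨w, hw, rfl⟩, rfl⟩ := Set.mem_mul.1 hx
    refine ⟨Pi.single i r + w, ?_, ?_⟩
    · intro hmem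
      have h1 := (mem_Lt_iff c _).1 hmem i
      have h2 := (mem_Lt_iff _ w).1 hw i
      simp only [Function.update_self] at h2
      simp only [Pi.add_apply, Pi.single_eq_same] at h1
      exact hr ((dvd_add_left h2).1 h1)
    · show e (Multiplicative.ofAdd (Pi.single i r + w)) = gi e i ^ r * e (Multiplicative.ofAdd w)
      rw [gi_zpow, ofAdd_add, map_mul]

theorem decVec_Lt (c : Fin 𝔐.k → ℕ) : DecVec μ e (fun _ : π => Lt c) :=
  ⟨re_Lt c, (RESet.iUnion_finite (fun i => (re_zpow_not_dvd (gi e i) (c i)).mul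
    (re_Lt (Function.update (fun _ => 1) i (c i))))).of_eq (fun _ => (XS_Lt_compl c).symm)⟩

/-- (`Lt 1 = univ`.) -/
theorem decVec_univ : DecVec μ e (fun _ : π => (Set.univ : Set 𝔐.Vec)) := by
  refine (decVec_Lt (μ := μ) (e := e) (π := π) (fun _ => 1)).of_eq (fun _ => ?_)
  ext v
  simp [mem_Lt_iff]

/-- (`Lt 0 = {0}`, `DecVec.translate`.) -/
theorem decVec_singleton {a : π → 𝔐.Vec} (ha : RESet μ (fun p => {e (Multiplicative.ofAdd (a p))})) :
    DecVec μ e (fun p => {a p}) := by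
  refine (DecVec.translate ha (decVec_Lt (μ := μ) (e := e) (π := π) (fun _ => 0))).of_eq (fun p => ?_)
  ext v
  simp only [Set.mem_ofPred_eq, mem_Lt_iff, Set.mem_singleton_iff, Nat.cast_zero, zero_dvd_iff,
    Pi.sub_apply, sub_eq_zero]
  exact funext_iff.symm

/-- The domain of a letter is `a l + Lt (mu l)`. -/
theorem decVec_dom (l : Fin 𝔐.nL) : DecVec μ e (fun _ : π => {α' | ∃ β', 𝔐.Step l α' β'}) := by
  refine (DecVec.translate (a := fun _ => 𝔐.a l) (RESet.singleton _)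
    (decVec_Lt (μ := μ) (e := e) (π := π) (𝔐.mu l))).of_eq (fun p => ?_)
  ext v
  constructor
  · rintro ⟨u, hu⟩
    exact ⟨_, u, by rw [← hu]; abel, rfl⟩
  · rintro ⟨_, u, hu, -⟩
    exact ⟨u, by rw [hu]; abel⟩

/-- The range of a letter is `b l + Lt (mu' l)`. -/
theorem decVec_ran (l : Fin 𝔐.nL) : DecVec μ e (fun _ : π => {β' | ∃ α', 𝔐.Step l α' β'}) := by
  refine (DecVec.translate (a := fun _ => 𝔐.b l) (RESet.singleton _)
    (decVec_Lt (μ := μ) (e := e) (π := π) (𝔐.mu' l))).of_eq (fun p => ?_)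
  ext v
  constructor
  · rintro ⟨u, hu⟩
    exact ⟨_, u, rfl, by rw [← hu]; abel⟩
  · rintro ⟨_, u, -, hu⟩
    exact ⟨u, by rw [hu]; abel⟩

/-! ### Vectors depending computably on the parameter -/

/-- Every coordinate is `±` a computable function of the parameter. -/
def CompVec (ξ : π → 𝔐.Vec) : Prop :=
  ∀ i, ∃ f : π → ℕ, Computable f ∧ ((∀ q, ξ q i = (f q : ℤ)) ∨ ∀ q, ξ q i = -(f q : ℤ))

/-- `e (ofAdd v) = ∏ i, gi e i ^ v i` (in the order of `List.finRange`).  (`Finset.univ_sum_single`, `Fin.prod_univ_def` / `Fin.sum_univ_def`, `map_list_prod`, `gi_zpow`.) -/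
theorem e_eq_list_prod (v : 𝔐.Vec) :
    e (Multiplicative.ofAdd v) = ((List.finRange 𝔐.k).map (fun i => gi e i ^ v i)).prod := by
  have h1 : (Multiplicative.ofAdd v : 𝔐.Q) =
      ((List.finRange 𝔐.k).map (fun i => (Multiplicative.ofAdd (Pi.single i (v i) : 𝔐.Vec) : 𝔐.Q))).prod := by
    rw [← Fin.prod_univ_def, ← ofAdd_sum, Finset.univ_sum_single]
  rw [h1, map_list_prod, List.map_map]
  congr 1
  refine List.map_congr_left fun i _ => ?_
  rw [gi_zpow]
  rfl

/-- The singleton `{e (ξ q)}` is an r.e. family.  (`RESet.list_prod` over `List.finRange k` of the families `fun q => {gi e i ^ ξ q i}`; each of them is `RESet.pow (gi e i)` or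
`RESet.pow (gi e i)⁻¹` with `P q n := n = f q` (`re_eq`); a product of singletons is a singleton.) -/
theorem re_singleton_of_compVec {ξ : π → 𝔐.Vec} (hξ : CompVec ξ) :
    RESet μ (fun q => {e (Multiplicative.ofAdd (ξ q))}) := by
  have hs : ∀ (l : List (Fin 𝔐.k)) (f : Fin 𝔐.k → M),
      (l.map (fun i => ({f i} : Set M))).prod = {(l.map f).prod} := by
    intro l f
    induction l with
    | nil => simp [Set.singleton_one]
    | cons i l ih => simp only [List.map_cons, List.prod_cons, ih, Set.singleton_mul_singleton]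
  have h : ∀ i ∈ List.finRange 𝔐.k, RESet μ (fun q => ({gi e i ^ ξ q i} : Set M)) := by
    intro i _
    obtain ⟨f, hf, h | h⟩ := hξ i
    · refine (RESet.pow (μ := μ) (gi e i) (P := fun q n => n = f q)
        (re_eq Computable.snd (hf.comp Computable.fst))).of_eq (fun q => ?_)
      ext x
      constructor
      · rintro ⟨n, rfl, rfl⟩
        rw [Set.mem_singleton_iff, h q, zpow_natCast]
      · intro hx
        rw [Set.mem_singleton_iff, h q, zpow_natCast] at hx
        exact ⟨f q, rfl, hx⟩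
    · refine (RESet.pow (μ := μ) (gi e i)⁻¹ (P := fun q n => n = f q)
        (re_eq Computable.snd (hf.comp Computable.fst))).of_eq (fun q => ?_)
      ext x
      constructor
      · rintro ⟨n, rfl, rfl⟩
        rw [Set.mem_singleton_iff, h q, zpow_neg, zpow_natCast, inv_pow]
      · intro hx
        rw [Set.mem_singleton_iff, h q, zpow_neg, zpow_natCast, ← inv_pow] at hx
        exact ⟨f q, rfl, hx⟩
  refine (RESet.list_prod (μ := μ) (List.finRange 𝔐.k) h).of_eq (fun q => ?_)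
  rw [hs, e_eq_list_prod]

end Lat

end Claimed.Agent.R152.EV
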