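/-
Row 152, module EV (helper531).  EVIDENCE IN  `Semi H C = FreeGroup (H ⧸ C) ⋊ H = ⟨H, t | [t,C]⟩`:  SET IDENTITIES.
An element is `y = (τ,g)`, `τ = y.left` a reduced word in the points `H ⧸ C`, `g = y.right`.
`o` = base point, `te ε = t^{±1}`, `inr h * te ε * (inr h)⁻¹ = tt (h • o)^{±1}`.
  `NS ε`        : the reduced word of `τ` does not begin with `(o, !ε)`      (so that `te ε * y` is reduced)
  `FNp 𝒰`       : `τ ≠ 1` and the first letter of `τ` is a point outside `𝒰`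
  `FirstNot 𝒰`  : `τ = 1` or the first letter of `τ` is outside `𝒰`
  `FFs 𝒰`       : the subgroup `F(𝒰)` generated by the markers `tt q`, `q ∈ 𝒰`
  `Sg 𝒱 Q₁`     : `g ∈ Q₁` and all letters of `τ` in `𝒱`.
Results: right-linear description of `NS`; `FNp 𝒰 = ⋃ XP 𝒰ᶜ te NS`; `(Sg 𝒱 Q₁)ᶜ`; THE ATOM LEMMA for `(F(𝒰) Sg(𝒱,Q₁) F(𝒲))ᶜ`.
STATEMENTS ARE FROZEN (other files use them). Proofs are in the docstrings.
-/
import Claimed.Agent.R152.H.SemiPt
import Claimed.Agent.R152.EV.RL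

set_option autoImplicit false

namespace Claimed.Agent.R152.EV

open Claimed.Agent.R152.H SemidirectProduct
open scoped Pointwise

namespace SemiEv

variable {H : Type*} [Group H] {C : Subgroup H}

variable (C) in
/-- The base point. -/
def o : H ⧸ C := ((1 : H) : H ⧸ C)

/-- `t^{±1}`. -/
def te (ε : Bool) : Semi H C := inl (FreeGroup.mk [(o C, ε)])

theorem te_true : (te true : Semi H C) = Semi.t := rfl

theorem te_false : (te false : Semi H C) = Semi.t⁻¹ := by
  unfold te Semi.t Semi.tt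
  rw [← map_inv]
  rfl

/-- The translations moving the base point into `𝒰`. -/
def XP (𝒰 : Set (H ⧸ C)) : Set (Semi H C) := inr '' {h : H | (h : H ⧸ C) ∈ 𝒰}

/-- `F(𝒰)`. -/
def FFs (𝒰 : Set (H ⧸ C)) : Subgroup (Semi H C) := Subgroup.closure (Semi.tt '' 𝒰)

/-- The retraction `y ↦ inr y.right`. -/
def retr : Semi H C →* Semi H C := (inr : H →* Semi H C).comp rightHom

@[simp] theorem retr_apply (y : Semi H C) : retr y = inr y.right := rfl

/-- The edges of the system  `NS ε → X | te ε NS ε | (X ∖ C) te ε' NS ε'`. -/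
def Edge (ε ε' : Bool) : Set (Semi H C) :=
  {x | (ε' = ε ∧ x = te ε) ∨ ∃ h : H, h ∉ C ∧ x = inr h * te ε'}

theorem smul_o (h : H) : h • o C = (h : H ⧸ C) := by
  show ((h * 1 : H) : H ⧸ C) = _
  rw [mul_one]

theorem mk_eq_o_iff (h : H) : (h : H ⧸ C) = o C ↔ h ∈ C := by
  unfold o
  rw [QuotientGroup.eq, mul_one, inv_mem_iff]

/-- `F(𝒰)` is generated by the conjugates `x t x⁻¹`, `x ∈ XP 𝒰` (`Semi.tt_mk`). -/
theorem FFs_eq (𝒰 : Set (H ⧸ C)) :
    FFs 𝒰 = Subgroup.closure ((fun x : Semi H C => x * Semi.t * x⁻¹) '' XP 𝒰) := by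
  unfold FFs XP
  congr 1
  ext x
  constructor
  · rintro ⟨q, hq, rfl⟩
    obtain ⟨h, rfl⟩ := QuotientGroup.mk_surjective q
    exact ⟨inr h, ⟨h, hq, rfl⟩, (Semi.tt_mk h).symm⟩
  · rintro ⟨_, ⟨h, hh, rfl⟩, rfl⟩
    exact ⟨(h : H ⧸ C), hh, Semi.tt_mk h⟩

variable [DecidableEq (H ⧸ C)]

/-- The reduced word of `y.left` does not begin with `(o, !ε)`. -/
def NS (ε : Bool) : Set (Semi H C) := {y | y.left.toWord.head? ≠ some (o C, !ε)}

/-- `y.left ≠ 1` and its first letter is a point outside `𝒰`. -/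
def FNp (𝒰 : Set (H ⧸ C)) : Set (Semi H C) := {y | ∃ p ∈ y.left.toWord.head?, p.1 ∉ 𝒰}

/-- `y.left = 1` or its first letter is a point outside `𝒰`. -/
def FirstNot (𝒰 : Set (H ⧸ C)) : Set (Semi H C) := {y | ∀ p ∈ y.left.toWord.head?, p.1 ∉ 𝒰}

/-- `y.right ∈ Q₁` and all letters of `y.left` lie in `𝒱`. -/
def Sg (𝒱 : Set (H ⧸ C)) (Q₁ : Set H) : Set (Semi H C) :=
  {y | y.right ∈ Q₁ ∧ ∀ p ∈ y.left.toWord, p.1 ∈ 𝒱}

/-! ### Basic computations -/

/-- `y.left.toWord = [] ↔ y ∈ range inr`. -/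
theorem toWord_eq_nil_iff (y : Semi H C) : y.left.toWord = [] ↔ y ∈ Set.range (inr : H → Semi H C) := by
  rw [FreeGroup.toWord_eq_nil_iff]
  constructor
  · intro h
    exact ⟨y.right, SemidirectProduct.ext (by rw [left_inr, h]) (by rw [right_inr])⟩
  · rintro ⟨h, rfl⟩
    exact left_inr h

theorem toWord_inr_mul (h : H) (y : Semi H C) :
    (inr h * y).left.toWord = y.left.toWord.map (fun p => (h • p.1, p.2)) := by
  rw [mul_left, left_inr, right_inr, one_mul, Semi.toWord_act]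

/-- `te ε * y` is reduced for `y ∈ NS ε`.  (`(te ε * y).left = mk [(o,ε)] * y.left = mk ((o,ε) :: y.left.toWord)`, and this list is reduced:
`FreeGroup.IsReduced` is `List.IsChain`, the first link holds because the head of `y.left.toWord` is not `(o,!ε)`.) -/
theorem semiEv_te_mul_left (ε : Bool) (y : Semi H C) :
    (te ε * y).left = FreeGroup.mk ((o C, ε) :: y.left.toWord) := by
  have h1 : (te ε : Semi H C).left = FreeGroup.mk [(o C, ε)] := rfl
  have h2 : (te ε : Semi H C).right = 1 := rfl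
  rw [mul_left, h1, h2, map_one, MulAut.one_apply]
  conv_lhs => rw [← FreeGroup.mk_toWord (x := y.left)]
  rw [FreeGroup.mul_mk]
  rfl

omit [DecidableEq (H ⧸ C)] in
/-- `(o,ε) :: L` is reduced iff `L` is reduced and does not begin with `(o,!ε)`. -/
theorem semiEv_isReduced_cons (q : H ⧸ C) (ε : Bool) (L : List ((H ⧸ C) × Bool)) :
    FreeGroup.IsReduced ((q, ε) :: L) ↔ L.head? ≠ some (q, !ε) ∧ FreeGroup.IsReduced L := by
  unfold FreeGroup.IsReduced
  rw [List.isChain_cons]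
  refine and_congr_left (fun _ => ?_)
  constructor
  · intro h h'
    have := h (q, !ε) (by rw [h']; rfl) rfl
    cases ε <;> simp at this
  · intro h p hp h1
    by_contra h2
    apply h
    rw [Option.mem_def] at hp
    rw [hp]
    obtain ⟨p1, p2⟩ := p
    simp only at h1 h2
    subst h1
    cases ε <;> cases p2 <;> simp_all

theorem toWord_te_mul {ε : Bool} {y : Semi H C} (hy : y ∈ NS ε) :
    (te ε * y).left.toWord = (o C, ε) :: y.left.toWord := by
  rw [semiEv_te_mul_left, FreeGroup.toWord_mk]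
  exact FreeGroup.IsReduced.reduce_eq
    ((semiEv_isReduced_cons _ _ _).2 ⟨hy, FreeGroup.isReduced_toWord⟩)

/-- Splitting off the first letter. If `y.left.toWord = (h • o, ε) :: L` then `y = inr h * te ε * y'` with
`y'.left.toWord = L.map (h⁻¹ • ·)`, `y' ∈ NS ε`.
(`y' := (te ε)⁻¹ * (inr h)⁻¹ * y`. `((inr h)⁻¹ * y).left.toWord = (o,ε) :: L.map (h⁻¹ • ·)` by `toWord_inr_mul`; call the tail `L'`; it is reduced
(infix of a reduced word), so `y'.left = (mk [(o,ε)])⁻¹ * mk ((o,ε) :: L') = mk L'` has the word `L'`; the head of `L'` is not `(o,!ε)` because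
`(o,ε) :: L'` is reduced.) -/
theorem exists_split_first {y : Semi H C} {h : H} {ε : Bool} {L : List ((H ⧸ C) × Bool)}
    (hy : y.left.toWord = ((h : H ⧸ C), ε) :: L) :
    ∃ y' ∈ NS (C := C) ε, y = inr h * te ε * y' ∧ y'.left.toWord = L.map (fun p => (h⁻¹ • p.1, p.2)) := by
  obtain ⟨L', hL'⟩ : ∃ L' : List ((H ⧸ C) × Bool), L' = L.map (fun p => (h⁻¹ • p.1, p.2)) := ⟨_, rfl⟩
  obtain ⟨w, hw⟩ : ∃ w : Semi H C, w = inr h⁻¹ * y := ⟨_, rfl⟩
  have hww : w.left.toWord = (o C, ε) :: L' := by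
    rw [hw, toWord_inr_mul, hy, List.map_cons, ← hL']
    congr 2
    rw [← smul_o (C := C) h, inv_smul_smul]
  have hred : FreeGroup.IsReduced ((o C, ε) :: L') := by
    rw [← hww]
    exact FreeGroup.isReduced_toWord
  obtain ⟨hhead, hredL⟩ := (semiEv_isReduced_cons _ _ _).1 hred
  have hy'w : (⟨FreeGroup.mk L', w.right⟩ : Semi H C).left.toWord = L' := by
    show (FreeGroup.mk L').toWord = L'
    rw [FreeGroup.toWord_mk]
    exact hredL.reduce_eq
  refine ⟨⟨FreeGroup.mk L', w.right⟩, ?_, ?_, ?_⟩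
  · show (⟨FreeGroup.mk L', w.right⟩ : Semi H C).left.toWord.head? ≠ _
    rw [hy'w]
    exact hhead
  · have h1 : te ε * (⟨FreeGroup.mk L', w.right⟩ : Semi H C) = w := by
      refine SemidirectProduct.ext ?_ ?_
      · rw [semiEv_te_mul_left, hy'w, ← hww, FreeGroup.mk_toWord]
      · show (1 : H) * w.right = w.right
        rw [one_mul]
    rw [mul_assoc, h1, hw, ← mul_assoc, ← map_mul, mul_inv_cancel, map_one, one_mul]
  · rw [hy'w, hL']

/-- The word of `inr h * te ε * y'`, `y' ∈ NS ε`. -/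
theorem toWord_inr_te_mul (h : H) {ε : Bool} {y' : Semi H C} (hy : y' ∈ NS ε) :
    (inr h * te ε * y').left.toWord =
      ((h : H ⧸ C), ε) :: y'.left.toWord.map (fun p => (h • p.1, p.2)) := by
  rw [mul_assoc, toWord_inr_mul, toWord_te_mul hy, List.map_cons, smul_o]

/-! ### (S1) the right-linear description of `NS` -/

/-- (S1).
`→`: induction on `RL`. `last`: `y = inr h`, the word is empty. `step`, first kind: `toWord_te_mul`, the head is `(o,ε) ≠ (o,!ε)`. `step`, second kind: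
`toWord_inr_te_mul` (after `mul_assoc`), the head is `((h : H ⧸ C), ε')` and `(h : H ⧸ C) ≠ o` by `mk_eq_o_iff`.
`←`: induction on the length of `y.left.toWord`, for all `ε`, `y`. Empty word: `toWord_eq_nil_iff`, `RL.last`. Word `(p,δ) :: L`: if `p = o` then `δ = ε` (as
`y ∈ NS ε`); `exists_split_first` with `h = 1` (`inr 1 = 1`) gives `y = te ε * y'`, `y' ∈ NS ε` with a shorter word: `RL.step` (first kind). If `p ≠ o`: `p = (h : H ⧸ C)`
(`QuotientGroup.mk_surjective`), `h ∉ C`; `exists_split_first`, `RL.step` (second kind). -/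
theorem rl_iff_mem_NS (ε : Bool) (y : Semi H C) :
    RL (fun _ : Bool => Set.range (inr : H → Semi H C)) (Edge (C := C)) ε y ↔ y ∈ NS ε := by
  constructor
  · intro h
    induction h with
    | @last s x h =>
      show x.left.toWord.head? ≠ _
      rw [(toWord_eq_nil_iff x).2 h]
      simp
    | @step s s' e y he _ ih =>
      rcases he with ⟨rfl, rfl⟩ | ⟨h, hh, rfl⟩
      · show (te s' * y).left.toWord.head? ≠ _
        rw [toWord_te_mul ih]
        cases s' <;> simp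
      · show (inr h * te s' * y).left.toWord.head? ≠ _
        rw [toWord_inr_te_mul h ih]
        intro h'
        rw [List.head?_cons, Option.some.injEq, Prod.mk.injEq] at h'
        exact hh ((mk_eq_o_iff h).1 h'.1)
  · have key : ∀ (n : ℕ) (ε : Bool) (y : Semi H C), y.left.toWord.length = n → y ∈ NS ε →
        RL (fun _ : Bool => Set.range (inr : H → Semi H C)) (Edge (C := C)) ε y := by
      intro n
      induction n with
      | zero =>
        intro ε y hn _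
        exact RL.last ((toWord_eq_nil_iff y).1 (List.length_eq_zero_iff.1 hn))
      | succ n ih =>
        intro ε y hn hy
        obtain ⟨⟨p, δ⟩, L, hL⟩ : ∃ a L, y.left.toWord = a :: L := by
          cases hw : y.left.toWord with
          | nil => rw [hw] at hn; simp at hn
          | cons a L => exact ⟨a, L, rfl⟩
        have hLn : L.length = n := by
          rw [hL, List.length_cons] at hn
          omega
        obtain ⟨h, rfl⟩ := QuotientGroup.mk_surjective p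
        by_cases hC : h ∈ C
        · have hp : (h : H ⧸ C) = ((1 : H) : H ⧸ C) := (mk_eq_o_iff h).2 hC
          have hδ : δ = ε := by
            have h1 : y.left.toWord.head? ≠ some (o C, !ε) := hy
            rw [hL, List.head?_cons, (mk_eq_o_iff h).2 hC] at h1
            cases δ <;> cases ε <;> simp_all
          subst hδ
          rw [hp] at hL
          obtain ⟨y', hy', rfl, hw'⟩ := exists_split_first hL
          rw [map_one, one_mul]
          refine RL.step (Or.inl ⟨rfl, rfl⟩) (ih δ y' ?_ hy')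
          rw [hw', List.length_map, hLn]
        · obtain ⟨y', hy', rfl, hw'⟩ := exists_split_first hL
          refine RL.step (Or.inr ⟨h, hC, rfl⟩) (ih δ y' ?_ hy')
          rw [hw', List.length_map, hLn]
    exact fun hy => key _ ε y rfl hy

/-! ### (S2) first letters -/

/-- (S2). `exists_split_first` / `toWord_inr_te_mul`. -/
theorem mem_FNp_iff (𝒰 : Set (H ⧸ C)) (y : Semi H C) :
    y ∈ FNp 𝒰 ↔ ∃ (h : H) (ε : Bool) (y' : Semi H C), (h : H ⧸ C) ∉ 𝒰 ∧ y' ∈ NS ε ∧ y = inr h * te ε * y' := by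
  constructor
  · rintro ⟨⟨q, ε⟩, hp, hq⟩
    obtain ⟨h, rfl⟩ := QuotientGroup.mk_surjective q
    obtain ⟨L, hL⟩ : ∃ L, y.left.toWord = ((h : H ⧸ C), ε) :: L := by
      cases hw : y.left.toWord with
      | nil => rw [hw] at hp; simp at hp
      | cons a L =>
        rw [hw] at hp
        simp only [List.head?_cons, Option.mem_def, Option.some.injEq] at hp
        exact ⟨L, by rw [hp]⟩
    obtain ⟨y', hy', e, -⟩ := exists_split_first hL
    exact ⟨h, ε, y', hq, hy', e⟩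
  · rintro ⟨h, ε, y', hq, hy', rfl⟩
    refine ⟨((h : H ⧸ C), ε), ?_, hq⟩
    rw [toWord_inr_te_mul h hy']
    simp

theorem FNp_eq (𝒰 : Set (H ⧸ C)) : FNp 𝒰 = ⋃ ε : Bool, XP 𝒰ᶜ * {te ε} * NS ε := by
  ext y
  rw [mem_FNp_iff, Set.mem_iUnion]
  constructor
  · rintro ⟨h, ε, y', hq, hy', rfl⟩
    exact ⟨ε, Set.mul_mem_mul (Set.mul_mem_mul ⟨h, hq, rfl⟩ rfl) hy'⟩
  · rintro ⟨ε, hy⟩
    obtain ⟨a, ha, y', hy', rfl⟩ := Set.mem_mul.1 hy
    obtain ⟨x, ⟨h, hq, rfl⟩, b, hb, rfl⟩ := Set.mem_mul.1 ha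
    rw [Set.mem_singleton_iff] at hb
    subst hb
    exact ⟨h, ε, y', hq, hy', rfl⟩

theorem FirstNot_eq (𝒰 : Set (H ⧸ C)) : FirstNot 𝒰 = Set.range (inr : H → Semi H C) ∪ FNp 𝒰 := by
  ext y
  rw [Set.mem_union, ← toWord_eq_nil_iff]
  show (∀ p ∈ y.left.toWord.head?, p.1 ∉ 𝒰) ↔
    y.left.toWord = [] ∨ ∃ p ∈ y.left.toWord.head?, p.1 ∉ 𝒰
  cases y.left.toWord with
  | nil => simp
  | cons a L => simp

/-! ### (S3) the subgroups `F(𝒰)` -/

/-- (`FFs 𝒰 = (closure (of '' 𝒰)).map inl`, `freeGroup_mem_closure_of_image_iff`.) -/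
theorem mem_FFs_iff (𝒰 : Set (H ⧸ C)) (y : Semi H C) :
    y ∈ FFs 𝒰 ↔ y.right = 1 ∧ ∀ p ∈ y.left.toWord, p.1 ∈ 𝒰 := by
  have h1 : FFs 𝒰 = (Subgroup.closure (FreeGroup.of '' 𝒰)).map
      (inl : FreeGroup (H ⧸ C) →* Semi H C) := by
    rw [MonoidHom.map_closure, Set.image_image]
    rfl
  rw [h1, Subgroup.mem_map]
  constructor
  · rintro ⟨τ, hτ, rfl⟩
    exact ⟨rfl, (freeGroup_mem_closure_of_image_iff _ _).1 hτ⟩
  · rintro ⟨hr, hl⟩
    refine ⟨y.left, (freeGroup_mem_closure_of_image_iff _ _).2 hl, ?_⟩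
    ext
    · rfl
    · exact hr.symm

/-! ### (S4) the complement of `Sg` -/

/-- No cancellation: if the letters of `f` lie in `𝒱` and the first letter of `y'` does not, then the word of `f * y'` is the
concatenation. (`(f * y').left = f.left * y'.left` as `f.right = 1`; `FreeGroup.toWord_mul`, the concatenation is reduced by `List.isChain_append`:
at the junction the two points are different.) -/
theorem toWord_FFs_mul {𝒱 : Set (H ⧸ C)} {f y' : Semi H C} (hf : f ∈ FFs 𝒱) (hy : y' ∈ FNp 𝒱) :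
    (f * y').left.toWord = f.left.toWord ++ y'.left.toWord := by
  obtain ⟨hr, hl⟩ := (mem_FFs_iff 𝒱 f).1 hf
  obtain ⟨p, hp, hp𝒱⟩ := hy
  have hred : FreeGroup.IsReduced (f.left.toWord ++ y'.left.toWord) := by
    unfold FreeGroup.IsReduced
    rw [List.isChain_append]
    refine ⟨FreeGroup.isReduced_toWord, FreeGroup.isReduced_toWord, ?_⟩
    intro x hx z hz hxz
    exfalso
    have hx' : x ∈ f.left.toWord := List.mem_of_getLast? hx
    have hzp : z = p := by
      rw [Option.mem_def] at hz hp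
      rw [hz] at hp
      exact Option.some.inj hp
    exact hp𝒱 (hzp ▸ hxz ▸ hl x hx')
  have hm : (f * y').left = FreeGroup.mk (f.left.toWord ++ y'.left.toWord) := by
    rw [mul_left, hr, map_one, ← FreeGroup.mul_mk, FreeGroup.mk_toWord, FreeGroup.mk_toWord]
    rfl
  rw [hm, FreeGroup.toWord_mk, hred.reduce_eq]

/-- The first element of a list violating `P`. -/
theorem semiEv_exists_first_bad {β : Type*} (P : β → Prop) (W : List β) (h : ¬ ∀ x ∈ W, P x) :
    ∃ (L₁ : List β) (a : β) (L₂ : List β), W = L₁ ++ a :: L₂ ∧ (∀ x ∈ L₁, P x) ∧ ¬ P a := by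
  induction W with
  | nil => simp at h
  | cons b L ih =>
    by_cases hb : P b
    · have h' : ¬ ∀ x ∈ L, P x := by
        intro hL
        apply h
        intro x hx
        rcases List.mem_cons.1 hx with rfl | hx
        · exact hb
        · exact hL x hx
      obtain ⟨L₁, a, L₂, e, h1, h2⟩ := ih h'
      refine ⟨b :: L₁, a, L₂, by rw [e]; rfl, ?_, h2⟩
      intro x hx
      rcases List.mem_cons.1 hx with rfl | hx
      · exact hb
      · exact h1 x hx
    · exact ⟨[], b, L, rfl, by simp, hb⟩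

/-- (S4).  `→`: if `y.right ∈ Q₁`, some letter is outside `𝒱`; write `y.left.toWord = L₁ ++ (p,ε) :: L₂` with the letters of `L₁` in `𝒱`, `p ∉ 𝒱` (first bad
letter; e.g. `List.takeWhile`/`dropWhile`, or induction); `f := inl (mk L₁)`, `y' := f⁻¹ * y` has the word `(p,ε) :: L₂` (an infix of a reduced word is reduced).
`←`: `toWord_FFs_mul`: the first letter of `y'` is a letter of `f * y'`. -/
theorem not_mem_Sg_iff (𝒱 : Set (H ⧸ C)) (Q₁ : Set H) (y : Semi H C) :
    y ∉ Sg 𝒱 Q₁ ↔ y.right ∉ Q₁ ∨ ∃ f ∈ FFs 𝒱, ∃ y' ∈ FNp 𝒱, y = f * y' := by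
  constructor
  · intro hy
    by_cases hQ : y.right ∈ Q₁
    · right
      have hbad : ¬ ∀ p ∈ y.left.toWord, p.1 ∈ 𝒱 := fun h => hy ⟨hQ, h⟩
      obtain ⟨L₁, a, L₂, hW, hL₁, ha⟩ := semiEv_exists_first_bad (fun p : (H ⧸ C) × Bool => p.1 ∈ 𝒱)
        y.left.toWord hbad
      have hred : FreeGroup.IsReduced (L₁ ++ a :: L₂) := hW ▸ FreeGroup.isReduced_toWord
      have r1 : FreeGroup.IsReduced L₁ := hred.infix ⟨[], a :: L₂, by simp⟩
      have r2 : FreeGroup.IsReduced (a :: L₂) := hred.infix ⟨L₁, [], by simp⟩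
      have w1 : (FreeGroup.mk L₁).toWord = L₁ := by rw [FreeGroup.toWord_mk, r1.reduce_eq]
      have w2 : (FreeGroup.mk (a :: L₂)).toWord = a :: L₂ := by
        rw [FreeGroup.toWord_mk, r2.reduce_eq]
      have hyl : y.left = FreeGroup.mk L₁ * FreeGroup.mk (a :: L₂) := by
        rw [FreeGroup.mul_mk, ← hW, FreeGroup.mk_toWord]
      refine ⟨inl (FreeGroup.mk L₁), ?_, ⟨FreeGroup.mk (a :: L₂), y.right⟩, ?_, ?_⟩
      · rw [mem_FFs_iff]
        refine ⟨rfl, ?_⟩
        show ∀ p ∈ (FreeGroup.mk L₁).toWord, p.1 ∈ 𝒱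
        rw [w1]
        exact hL₁
      · refine ⟨a, ?_, ha⟩
        show a ∈ (FreeGroup.mk (a :: L₂)).toWord.head?
        rw [w2]
        simp
      · ext
        · rw [mul_left, hyl]
          simp
        · simp
    · exact Or.inl hQ
  · rintro (hQ | ⟨f, hf, y', hy', rfl⟩) hS
    · exact hQ hS.1
    · have hw := toWord_FFs_mul hf hy'
      obtain ⟨p, hp, hp𝒱⟩ := hy'
      refine hp𝒱 (hS.2 p ?_)
      rw [hw]
      exact List.mem_append_right _ (List.mem_of_head? hp)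

theorem Sg_compl (𝒱 : Set (H ⧸ C)) (Q₁ : Set H) :
    (Sg 𝒱 Q₁)ᶜ = retr ⁻¹' (inr '' Q₁ᶜ) ∪ (FFs 𝒱 : Set (Semi H C)) * FNp 𝒱 := by
  ext y
  rw [Set.mem_compl_iff, not_mem_Sg_iff, Set.mem_union]
  refine or_congr ?_ ?_
  · constructor
    · intro h
      exact ⟨y.right, h, rfl⟩
    · rintro ⟨q, hq, e⟩
      have : q = y.right := inr_injective e
      exact this ▸ hq
  · constructor
    · rintro ⟨f, hf, y', hy', rfl⟩
      exact Set.mul_mem_mul hf hy'
    · intro h
      obtain ⟨f, hf, y', hy', rfl⟩ := Set.mem_mul.1 h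
      exact ⟨f, hf, y', hy', rfl⟩

/-! ### (S5) the atom lemma -/

/-- A list lemma: strip a maximal prefix satisfying `p`, then a maximal suffix satisfying `q`. -/
theorem exists_three_split_list {β : Type*} (p q : β → Prop) (W : List β) :
    ∃ W₁ W₂ W₃ : List β, W = W₁ ++ W₂ ++ W₃ ∧ (∀ x ∈ W₁, p x) ∧ (∀ x ∈ W₃, q x) ∧
      (∀ x ∈ W₂.head?, ¬ p x) ∧ (∀ x ∈ W₂.getLast?, ¬ q x) := by
  classical
  have pre : ∀ (r : β → Prop) (W : List β), ∃ W₁ V : List β, W = W₁ ++ V ∧ (∀ x ∈ W₁, r x) ∧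
      (∀ x ∈ V.head?, ¬ r x) := by
    intro r W
    induction W with
    | nil => exact ⟨[], [], rfl, by simp, by simp⟩
    | cons a W ih =>
      by_cases ha : r a
      · obtain ⟨W₁, V, h1, h2, h3⟩ := ih
        refine ⟨a :: W₁, V, by rw [h1]; rfl, ?_, h3⟩
        intro x hx
        rcases List.mem_cons.1 hx with rfl | hx
        · exact ha
        · exact h2 x hx
      · refine ⟨[], a :: W, rfl, by simp, ?_⟩
        intro x hx
        simp only [List.head?_cons, Option.mem_def, Option.some.injEq] at hx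
        rw [← hx]; exact ha
  obtain ⟨W₁, V, h1, h2, h3⟩ := pre p W
  obtain ⟨S, T, k1, k2, k3⟩ := pre q V.reverse
  have hV : V = T.reverse ++ S.reverse := by
    rw [← List.reverse_append, ← k1, List.reverse_reverse]
  refine ⟨W₁, T.reverse, S.reverse, by rw [h1, hV, List.append_assoc], h2, ?_, ?_, ?_⟩
  · intro x hx
    exact k2 x (List.mem_reverse.1 hx)
  · intro x hx
    apply h3 x
    rw [hV]
    cases hT : T.reverse with
    | nil => rw [hT] at hx; simp at hx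
    | cons b l => rw [hT] at hx; simpa using hx
  · intro x hx
    rw [List.getLast?_reverse] at hx
    exact k3 x hx

/-- The first letter of `y⁻¹`: `y⁻¹ = (g⁻¹ • τ⁻¹, g⁻¹)`, so `(y⁻¹).left.toWord = (invRev τ.toWord).map (g⁻¹ • ·)`. -/
theorem toWord_inv (y : Semi H C) :
    (y⁻¹).left.toWord = (FreeGroup.invRev y.left.toWord).map (fun p => (y.right⁻¹ • p.1, p.2)) := by
  rw [SemidirectProduct.inv_left, Semi.toWord_act, FreeGroup.toWord_inv]

/-- `y⁻¹ ∈ FirstNot 𝒲` iff the last letter `x` of `y.left` satisfies `y.right⁻¹ • x ∉ 𝒲`. -/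
theorem inv_mem_FirstNot_iff (𝒲 : Set (H ⧸ C)) (y : Semi H C) :
    y⁻¹ ∈ FirstNot 𝒲 ↔ ∀ x ∈ y.left.toWord.getLast?, y.right⁻¹ • x.1 ∉ 𝒲 := by
  show (∀ p ∈ (y⁻¹).left.toWord.head?, p.1 ∉ 𝒲) ↔ _
  rw [toWord_inv, FreeGroup.invRev, List.head?_map, List.head?_reverse, List.getLast?_map]
  cases y.left.toWord.getLast? with
  | none => simp
  | some x => simp

/-- (S5) THE ATOM LEMMA.
`→`: `y = (τ,g)`. `exists_three_split_list` for `W = τ.toWord`, `p x := x.1 ∈ 𝒰`, `q x := g⁻¹ • x.1 ∈ 𝒲`.  `f := inl (mk W₁)`, `y' := (mk W₂, g)`,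
`f' := inl (act g⁻¹ (mk W₃))`; `f * y' * f' = (mk W₁ * mk W₂ * act g (act g⁻¹ (mk W₃)), g) = y`. `W₁, W₂, W₃` are reduced (infixes), so they are the words of the three
elements (`toWord_act` for `f'`). `y' ∉ Sg`, otherwise `y` is in the product.
`←`: let `y = f y' f' = f₁ s f₁'`. Then `y' = f₂ s f₂'` with `f₂ = f⁻¹ f₁ ∈ FFs 𝒰`, `f₂' = f₁' f'⁻¹ ∈ FFs 𝒲`; `g := y'.right = s.right ∈ Q₁`;
`y'.left = f₂.left * s.left * act g f₂'.left`, so `y'.left.toWord` is a SUBLIST of `A ++ B ++ C'` (`FreeGroup.toWord_mul_sublist` twice), `A` = word of `f₂` (letters in `𝒰`), `B` = word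
of `s` (letters in `𝒱`), `C'` = word of `f₂'` translated by `g`. By `List.sublist_append_iff` it is `a ++ b ++ c` with `a <+ A`, `b <+ B`, `c <+ C'`. `a = []`, else the first letter is in `𝒰`;
`c = []`, else the last letter `x` has `g⁻¹ • x ∈ 𝒲` (`inv_mem_FirstNot_iff`). So all letters are in `𝒱`: `y' ∈ Sg`, contradiction. -/
theorem atom (𝒰 𝒱 𝒲 : Set (H ⧸ C)) (Q₁ : Set H) (y : Semi H C) :
    (¬ ∃ f ∈ FFs 𝒰, ∃ s ∈ Sg 𝒱 Q₁, ∃ f' ∈ FFs 𝒲, y = f * s * f') ↔
      ∃ f ∈ FFs 𝒰, ∃ f' ∈ FFs 𝒲, ∃ y', y' ∈ FirstNot 𝒰 ∧ y'⁻¹ ∈ FirstNot 𝒲 ∧ y' ∉ Sg 𝒱 Q₁ ∧ y = f * y' * f' := by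
  constructor
  · intro hno
    obtain ⟨W₁, W₂, W₃, hW, h1, h3, h2a, h2b⟩ := exists_three_split_list
      (fun x : (H ⧸ C) × Bool => x.1 ∈ 𝒰) (fun x : (H ⧸ C) × Bool => y.right⁻¹ • x.1 ∈ 𝒲) y.left.toWord
    have hred : FreeGroup.IsReduced (W₁ ++ W₂ ++ W₃) := hW ▸ FreeGroup.isReduced_toWord
    have r1 : (FreeGroup.mk W₁).toWord = W₁ := by
      rw [FreeGroup.toWord_mk]
      exact (hred.infix ⟨[], W₂ ++ W₃, by simp⟩).reduce_eq
    have r2 : (FreeGroup.mk W₂).toWord = W₂ := by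
      rw [FreeGroup.toWord_mk]
      exact (hred.infix ⟨W₁, W₃, rfl⟩).reduce_eq
    have r3 : (FreeGroup.mk W₃).toWord = W₃ := by
      rw [FreeGroup.toWord_mk]
      exact (hred.infix ⟨W₁ ++ W₂, [], by simp⟩).reduce_eq
    have hf : (inl (FreeGroup.mk W₁) : Semi H C) ∈ FFs 𝒰 := by
      rw [mem_FFs_iff]
      refine ⟨rfl, ?_⟩
      rw [left_inl, r1]
      exact h1
    have hf' : (inl (Semi.act H C y.right⁻¹ (FreeGroup.mk W₃)) : Semi H C) ∈ FFs 𝒲 := by
      rw [mem_FFs_iff]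
      refine ⟨rfl, ?_⟩
      rw [left_inl, Semi.toWord_act, r3]
      intro p hp
      obtain ⟨x, hx, rfl⟩ := List.mem_map.1 hp
      exact h3 x hx
    have hy : y = inl (FreeGroup.mk W₁) * (⟨FreeGroup.mk W₂, y.right⟩ : Semi H C) *
        inl (Semi.act H C y.right⁻¹ (FreeGroup.mk W₃)) := by
      apply SemidirectProduct.ext
      · simp only [SemidirectProduct.mul_left, SemidirectProduct.mul_right, left_inl, right_inl, map_one,
          MulAut.one_apply, one_mul]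
        rw [← MulAut.mul_apply, ← map_mul, mul_inv_cancel, map_one, MulAut.one_apply,
          FreeGroup.mul_mk, FreeGroup.mul_mk, ← hW, FreeGroup.mk_toWord]
      · simp
    refine ⟨_, hf, _, hf', ⟨FreeGroup.mk W₂, y.right⟩, ?_, ?_, ?_, hy⟩
    · show ∀ p ∈ (FreeGroup.mk W₂).toWord.head?, p.1 ∉ 𝒰
      rw [r2]
      exact h2a
    · rw [inv_mem_FirstNot_iff]
      show ∀ x ∈ (FreeGroup.mk W₂).toWord.getLast?, y.right⁻¹ • x.1 ∉ 𝒲
      rw [r2]
      exact h2b
    · intro hs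
      exact hno ⟨_, hf, _, hs, _, hf', hy⟩
  · rintro ⟨f, hf, f', hf', y', hy1, hy2, hy3, rfl⟩ ⟨f₁, hf₁, s, hs, f₁', hf₁', he⟩
    apply hy3
    have e : y' = (f⁻¹ * f₁) * s * (f₁' * f'⁻¹) := by
      have : f⁻¹ * (f * y' * f') * f'⁻¹ = f⁻¹ * (f₁ * s * f₁') * f'⁻¹ := by rw [he]
      calc y' = f⁻¹ * (f * y' * f') * f'⁻¹ := by group
        _ = f⁻¹ * (f₁ * s * f₁') * f'⁻¹ := this
        _ = _ := by group
    obtain ⟨a1, a2⟩ := (mem_FFs_iff 𝒰 _).1 ((FFs 𝒰).mul_mem ((FFs 𝒰).inv_mem hf) hf₁)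
    obtain ⟨c1, c2⟩ := (mem_FFs_iff 𝒲 _).1 ((FFs 𝒲).mul_mem hf₁' ((FFs 𝒲).inv_mem hf'))
    set f₂ := f⁻¹ * f₁ with hf₂
    set f₂' := f₁' * f'⁻¹ with hf₂'
    have hr : y'.right = s.right := by
      rw [e]
      simp only [SemidirectProduct.mul_right, a1, c1, one_mul, mul_one]
    have hl : y'.left = f₂.left * s.left * Semi.act H C s.right f₂'.left := by
      rw [e]
      simp only [SemidirectProduct.mul_left, SemidirectProduct.mul_right, a1, map_one, MulAut.one_apply,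
        one_mul]
    have hsub : List.Sublist y'.left.toWord ((f₂.left.toWord ++ s.left.toWord) ++
        f₂'.left.toWord.map (fun p => (s.right • p.1, p.2))) := by
      rw [hl, ← Semi.toWord_act]
      exact (FreeGroup.toWord_mul_sublist _ _).trans
        ((FreeGroup.toWord_mul_sublist _ _).append (List.Sublist.refl _))
    obtain ⟨ab, c, h1, hab, hc⟩ := List.sublist_append_iff.1 hsub
    obtain ⟨a, b, h2, ha, hb⟩ := List.sublist_append_iff.1 hab
    have ha0 : a = [] := by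
      cases a with
      | nil => rfl
      | cons x l =>
        exfalso
        refine hy1 x ?_ (a2 x (ha.subset (List.mem_cons_self)))
        rw [h1, h2]
        simp
    have hc0 : c = [] := by
      rcases List.eq_nil_or_concat c with rfl | ⟨l, x, rfl⟩
      · rfl
      · exfalso
        have hx : x ∈ f₂'.left.toWord.map (fun p => (s.right • p.1, p.2)) := hc.subset (by simp)
        obtain ⟨z, hz, rfl⟩ := List.mem_map.1 hx
        refine (inv_mem_FirstNot_iff 𝒲 y').1 hy2 (s.right • z.1, z.2) ?_ ?_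
        · rw [h1]
          simp
        · rw [hr, inv_smul_smul]
          exact c2 z hz
    refine ⟨hr ▸ hs.1, ?_⟩
    intro p hp
    rw [h1, h2, ha0, hc0] at hp
    simp only [List.nil_append, List.append_nil] at hp
    exact hs.2 p (hb.subset hp)

theorem atom_eq (𝒰 𝒱 𝒲 : Set (H ⧸ C)) (Q₁ : Set H) :
    ((FFs 𝒰 : Set (Semi H C)) * Sg 𝒱 Q₁ * (FFs 𝒲 : Set (Semi H C)))ᶜ =
      (FFs 𝒰 : Set (Semi H C)) * (FirstNot 𝒰 ∩ (FirstNot 𝒲)⁻¹ ∩ (Sg 𝒱 Q₁)ᶜ) * (FFs 𝒲 : Set (Semi H C)) := by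
  ext y
  have h := atom 𝒰 𝒱 𝒲 Q₁ y
  constructor
  · intro hy
    obtain ⟨f, hf, f', hf', y', h1, h2, h3, rfl⟩ := h.1 (by
      rintro ⟨f, hf, s, hs, f', hf', rfl⟩
      exact hy (Set.mul_mem_mul (Set.mul_mem_mul hf hs) hf'))
    exact Set.mul_mem_mul (Set.mul_mem_mul hf ⟨⟨h1, h2⟩, h3⟩) hf'
  · intro hy hy'
    obtain ⟨u, hu, f', hf', rfl⟩ := Set.mem_mul.1 hy
    obtain ⟨f, hf, y', ⟨⟨h1, h2⟩, h3⟩, rfl⟩ := Set.mem_mul.1 hu
    refine h.2 ⟨f, hf, f', hf', y', h1, h2, h3, rfl⟩ ?_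
    obtain ⟨v, hv, g', hg', e⟩ := Set.mem_mul.1 hy'
    obtain ⟨g, hg, s, hs, rfl⟩ := Set.mem_mul.1 hv
    exact ⟨g, hg, s, hs, g', hg', e.symm⟩

end SemiEv

end Claimed.Agent.R152.EV
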