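/-
Row 152, module EV (helper531).  EVIDENCE IN `Semi H C`: the sets of `SemiEv.lean` are r.e.
Input: `hX'` (`H ∖ C` is r.e.), decidable families of point sets (`DecPts`), r.e. complement of `Q₁`.
Output: `re_atom`:  `(F(𝒰) Sg(𝒱,Q₁) F(𝒲))ᶜ` is r.e.
-/
import Claimed.Agent.R152.EV.SemiEv

set_option autoImplicit false

namespace Claimed.Agent.R152.EV

open Claimed.Agent.R152.H SemidirectProduct
open scoped Pointwise

namespace SemiEv

variable {α π : Type*} [Primcodable α] [Finite α] [Primcodable π]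
variable {H : Type*} [Group H] {C : Subgroup H} {μ : Mark α (Semi H C)}

/-- `H` is r.e. -/
theorem re_X : RESet μ (fun _ : π => Set.range (inr : H → Semi H C)) := by
  refine ((RESet.univ (μ := μ) (π := π)).image (IsWordMap.hom retr)).of_eq (fun _ => ?_)
  ext y
  constructor
  · rintro ⟨x, -, rfl⟩
    exact ⟨x.right, rfl⟩
  · rintro ⟨h, rfl⟩
    exact ⟨inr h, trivial, by simp⟩

/-- A family of sets of points such that `{h | h • o ∈ 𝒰 p}` and its complement are r.e. -/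
structure DecPts (μ : Mark α (Semi H C)) (𝒰 : π → Set (H ⧸ C)) : Prop where
  pos : RESet μ (fun p => XP (𝒰 p))
  neg : RESet μ (fun p => XP (𝒰 p)ᶜ)

theorem XP_empty : XP (∅ : Set (H ⧸ C)) = ∅ := by simp [XP]

theorem XP_univ : XP (Set.univ : Set (H ⧸ C)) = Set.range (inr : H → Semi H C) := by
  simp [XP]

theorem XP_union (𝒰 𝒱 : Set (H ⧸ C)) : XP (𝒰 ∪ 𝒱) = XP 𝒰 ∪ XP 𝒱 := by
  unfold XP
  rw [← Set.image_union]
  rfl

theorem XP_inter (𝒰 𝒱 : Set (H ⧸ C)) : XP (𝒰 ∩ 𝒱) = XP 𝒰 ∩ XP 𝒱 := by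
  unfold XP
  rw [← Set.image_inter inr_injective]
  rfl

theorem DecPts.empty : DecPts μ (fun _ : π => (∅ : Set (H ⧸ C))) :=
  ⟨RESet.empty.of_eq (fun _ => XP_empty.symm),
    re_X.of_eq (fun _ => by rw [Set.compl_empty, XP_univ])⟩

theorem DecPts.univ : DecPts μ (fun _ : π => (Set.univ : Set (H ⧸ C))) :=
  ⟨re_X.of_eq (fun _ => XP_univ.symm),
    RESet.empty.of_eq (fun _ => by rw [Set.compl_univ, XP_empty])⟩

theorem DecPts.compl {𝒰 : π → Set (H ⧸ C)} (h : DecPts μ 𝒰) : DecPts μ (fun p => (𝒰 p)ᶜ) :=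
  ⟨h.neg, h.pos.of_eq (fun p => by rw [compl_compl])⟩

theorem DecPts.union {𝒰 𝒱 : π → Set (H ⧸ C)} (h : DecPts μ 𝒰) (h' : DecPts μ 𝒱) :
    DecPts μ (fun p => 𝒰 p ∪ 𝒱 p) :=
  ⟨(h.pos.union h'.pos).of_eq (fun p => (XP_union _ _).symm),
    (h.neg.inter h'.neg).of_eq (fun p => by rw [Set.compl_union, XP_inter])⟩

theorem DecPts.inter {𝒰 𝒱 : π → Set (H ⧸ C)} (h : DecPts μ 𝒰) (h' : DecPts μ 𝒱) :
    DecPts μ (fun p => 𝒰 p ∩ 𝒱 p) :=
  ⟨(h.pos.inter h'.pos).of_eq (fun p => (XP_inter _ _).symm),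
    (h.neg.union h'.neg).of_eq (fun p => by rw [Set.compl_inter, XP_union])⟩

/-- `F(𝒰)` is r.e. -/
theorem re_FFs {𝒰 : π → Set (H ⧸ C)} (h : RESet μ (fun p => XP (𝒰 p))) :
    RESet μ (fun p => (FFs (𝒰 p) : Set (Semi H C))) := by
  have hw : IsWordMap μ (fun (_ : π) (x : Semi H C) => x * Semi.t * x⁻¹) :=
    (IsWordMap.id.mul (IsWordMap.const Semi.t)).mul IsWordMap.id.inv
  exact (RESet.closure (h.image hw)).of_eq (fun p => by rw [FFs_eq])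

variable [DecidableEq (H ⧸ C)]

theorem Edge_eq (ε ε' : Bool) :
    (Edge ε ε' : Set (Semi H C)) =
      {x | ε' = ε ∧ x ∈ ({te ε} : Set (Semi H C))} ∪ (inr '' {h : H | h ∉ C}) * {te ε'} := by
  ext x
  simp only [Edge, Set.mem_ofPred_eq, Set.mem_union, Set.mem_singleton_iff, Set.mem_mul,
    Set.mem_image]
  constructor
  · rintro (h | ⟨h, hh, rfl⟩)
    · exact Or.inl h
    · exact Or.inr ⟨_, ⟨h, hh, rfl⟩, _, rfl, rfl⟩
  · rintro (h | ⟨_, ⟨h, hh, rfl⟩, _, rfl, rfl⟩)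
    · exact Or.inl h
    · exact Or.inr ⟨h, hh, rfl⟩

/-- `NS ε` is r.e. -/
theorem re_NS (hX' : RESet μ (fun _ : π => (inr '' {h : H | h ∉ C} : Set (Semi H C)))) (ε : Bool) :
    RESet μ (fun _ : π => (NS ε : Set (Semi H C))) := by
  have hE : ∀ ε ε' : Bool, RESet μ (fun _ : π => (Edge ε ε' : Set (Semi H C))) := by
    intro ε ε'
    have h1 : RESet μ (fun _ : π => {x | ε' = ε ∧ x ∈ ({te ε} : Set (Semi H C))}) := by
      by_cases h : ε' = ε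
      · exact (RESet.singleton (te ε)).of_eq (fun _ => by ext x; simp [h])
      · exact RESet.empty.of_eq (fun _ => by ext x; simp [h])
    exact (h1.union (hX'.mul (RESet.singleton (te ε')))).of_eq (fun _ => (Edge_eq ε ε').symm)
  refine (RESet.rl (σ := Bool) (T := fun _ _ => Set.range (inr : H → Semi H C))
    (E := fun ε ε' _ => Edge ε ε') (fun _ => re_X) hE ε).of_eq (fun _ => ?_)
  ext y
  exact rl_iff_mem_NS ε y

theorem re_FNp (hX' : RESet μ (fun _ : π => (inr '' {h : H | h ∉ C} : Set (Semi H C))))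
    {𝒰 : π → Set (H ⧸ C)} (h : RESet μ (fun p => XP (𝒰 p)ᶜ)) : RESet μ (fun p => FNp (𝒰 p)) :=
  (RESet.iUnion_finite (ι := Bool)
    (fun ε => (h.mul (RESet.singleton (te ε))).mul (re_NS hX' ε))).of_eq (fun p => (FNp_eq _).symm)

theorem re_FirstNot (hX' : RESet μ (fun _ : π => (inr '' {h : H | h ∉ C} : Set (Semi H C))))
    {𝒰 : π → Set (H ⧸ C)} (h : RESet μ (fun p => XP (𝒰 p)ᶜ)) :
    RESet μ (fun p => FirstNot (𝒰 p)) :=
  (re_X.union (re_FNp hX' h)).of_eq (fun p => (FirstNot_eq _).symm)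

/-- `(Sg 𝒱 Q₁)ᶜ` is r.e. -/
theorem re_Sg_compl (hX' : RESet μ (fun _ : π => (inr '' {h : H | h ∉ C} : Set (Semi H C))))
    {𝒱 : π → Set (H ⧸ C)} (h𝒱 : DecPts μ 𝒱) {Q₁ : π → Set H}
    (hQ : RESet μ (fun p => (inr '' (Q₁ p)ᶜ : Set (Semi H C)))) :
    RESet μ (fun p => (Sg (𝒱 p) (Q₁ p))ᶜ) :=
  ((hQ.preimage (IsWordMap.hom retr)).union ((re_FFs h𝒱.pos).mul (re_FNp hX' h𝒱.neg))).of_eq
    (fun p => (Sg_compl _ _).symm)

/-- THE COMPLEMENT OF `F(𝒰) Sg(𝒱,Q₁) F(𝒲)` IS R.E. -/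
theorem re_atom (hX' : RESet μ (fun _ : π => (inr '' {h : H | h ∉ C} : Set (Semi H C))))
    {𝒰 𝒱 𝒲 : π → Set (H ⧸ C)} (h𝒰 : DecPts μ 𝒰) (h𝒱 : DecPts μ 𝒱) (h𝒲 : DecPts μ 𝒲)
    {Q₁ : π → Set H} (hQ : RESet μ (fun p => (inr '' (Q₁ p)ᶜ : Set (Semi H C)))) :
    RESet μ (fun p => ((FFs (𝒰 p) : Set (Semi H C)) * Sg (𝒱 p) (Q₁ p) *
      (FFs (𝒲 p) : Set (Semi H C)))ᶜ) :=
  (((re_FFs h𝒰.pos).mul (((re_FirstNot hX' h𝒰.neg).inter (re_FirstNot hX' h𝒲.neg).inv).inter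
    (re_Sg_compl hX' h𝒱 hQ))).mul (re_FFs h𝒲.pos)).of_eq (fun p => (atom_eq _ _ _ _).symm)

end SemiEv

end Claimed.Agent.R152.EV
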