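/-
Row 152, module EV (helper531), step (C).  DECIDABLE SETS OF CONFIGURATIONS inside `Bs = Semi Q ⊥` (marking `muB`), `eB = inr : Q →* Bs`, `xb v = eB (ofAdd v)`.
C0 `decPts_of_decVec`; C1/C3 complements of `⊥`, `{1}`, `A l`, `B l` in `Q`; C4 `decVec_reach` (needs W1); C5 `decVec_inC` (needs W2, Start, the r.e. singleton `{xb (ξ q)}`).
THE GROUP COMPUTES: `Reach α ↔ of (Tb α) ∈ Kac`, `¬ Reach α ↔ of (Tb α)` is conjugate under `Rac = ⟨t_l, l ∈ JM⟩` to `of (Tb β)`, `β` terminal, `β ≠ z`.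
STATEMENTS ARE FROZEN. Proofs are in the docstrings.
-/
import Claimed.Agent.R152.EV.Marks
import Claimed.Agent.R152.EV.Lat
import Claimed.Agent.R152.EV.SemiRE

set_option autoImplicit false

noncomputable section

namespace Claimed.Agent.R152.EV

open Claimed.Agent.R152.H Claimed.Agent.R152.HW Claimed.Agent.R152.HW.Aff SemidirectProduct
open scoped Pointwise Classical

namespace Cfg

variable {𝔐 : Aff} {π : Type*} [Primcodable π]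

variable (𝔐) in
/-- `Q → Bs`. -/
def eB : 𝔐.Q →* 𝔐.Bs := inr

theorem eB_injective : Function.Injective (eB 𝔐) := inr_injective

theorem eB_ofAdd (v : 𝔐.Vec) : eB 𝔐 (Multiplicative.ofAdd v) = xb v := rfl

/-- (`pt α = ((ofAdd α : Q) : Q ⧸ ⊥)`, `pt_bijective`.) -/
theorem XP_pt (Z : Set 𝔐.Vec) : (SemiEv.XP (pt '' Z) : Set 𝔐.Bs) = Lat.XS (eB 𝔐) Z := by
  ext y
  constructor
  · rintro ⟨h, ⟨α, hα, hh⟩, rfl⟩
    have h1 : h = Multiplicative.ofAdd α := by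
      have h2 : pt (Multiplicative.toAdd h) = pt α := hh.symm
      have h3 := pt_bijective.1 h2
      rw [← h3]; rfl
    exact ⟨α, hα, by rw [h1]; rfl⟩
  · rintro ⟨α, hα, rfl⟩
    exact ⟨Multiplicative.ofAdd α, ⟨α, hα, rfl⟩, rfl⟩

/-- (`pt_bijective`.) -/
theorem compl_pt (Z : Set 𝔐.Vec) : (pt '' Z)ᶜ = pt '' Zᶜ := by
  exact (Set.image_compl_eq pt_bijective).symm

/-- C0. -/
theorem decPts_of_decVec {Z : π → Set 𝔐.Vec} (h : Lat.DecVec (muB 𝔐) (eB 𝔐) Z) :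
    SemiEv.DecPts (muB 𝔐) (fun p => pt '' Z p) :=
  ⟨h.pos.of_eq (fun p => (XP_pt _).symm), h.neg.of_eq (fun p => by rw [compl_pt, XP_pt])⟩

/-- Complements of subsets of `Q` given by vectors. -/
theorem inr_compl_eq (T : Set 𝔐.Q) (Z : Set 𝔐.Vec) (h : ∀ v, Multiplicative.ofAdd v ∈ T ↔ v ∈ Z) :
    ((inr : 𝔐.Q → 𝔐.Bs) '' Tᶜ) = Lat.XS (eB 𝔐) Zᶜ := by
  ext y
  constructor
  · rintro ⟨q, hq, rfl⟩
    exact ⟨Multiplicative.toAdd q, fun hz => hq ((h _).2 hz), rfl⟩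
  · rintro ⟨v, hv, rfl⟩
    exact ⟨Multiplicative.ofAdd v, fun hz => hv ((h _).1 hz), rfl⟩

/-- C1. (`inr_compl_eq` with `Z = Lt 0`, `Lat.decVec_Lt`.) -/
theorem re_compl_bot :
    RESet (muB 𝔐) (fun _ : π => ((inr : 𝔐.Q → 𝔐.Bs) '' {h : 𝔐.Q | h ∉ (⊥ : Subgroup 𝔐.Q)})) := by
  refine (Lat.decVec_Lt (μ := muB 𝔐) (e := eB 𝔐) (π := π) (fun _ => 0)).neg.of_eq (fun _ => ?_)
  refine (inr_compl_eq ((⊥ : Subgroup 𝔐.Q) : Set 𝔐.Q) _ (fun v => ?_)).symm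
  rw [SetLike.mem_coe, Subgroup.mem_bot, Lat.mem_Lt_iff]
  constructor
  · intro h i
    have h1 : v = 0 := Multiplicative.ofAdd.injective h
    simp [h1]
  · intro h
    have h1 : v = 0 := by
      funext i
      simpa using h i
    rw [h1]; rfl

theorem re_compl_one : RESet (muB 𝔐) (fun _ : π => ((inr : 𝔐.Q → 𝔐.Bs) '' ({1} : Set 𝔐.Q)ᶜ)) := by
  refine (re_compl_bot (𝔐 := 𝔐) (π := π)).of_eq (fun _ => ?_)
  congr 1

/-- C3. (`inr_compl_eq` with `Z = Lt (mu l)`, `Aff.mem_A_iff`.) -/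
theorem re_compl_A (l : Fin 𝔐.nL) :
    RESet (muB 𝔐) (fun _ : π => ((inr : 𝔐.Q → 𝔐.Bs) '' (𝔐.A l : Set 𝔐.Q)ᶜ)) := by
  refine (Lat.decVec_Lt (μ := muB 𝔐) (e := eB 𝔐) (π := π) (𝔐.mu l)).neg.of_eq (fun _ => ?_)
  exact (inr_compl_eq (𝔐.A l : Set 𝔐.Q) _ (fun v => Aff.mem_A_iff 𝔐 l v)).symm

theorem re_compl_B (l : Fin 𝔐.nL) :
    RESet (muB 𝔐) (fun _ : π => ((inr : 𝔐.Q → 𝔐.Bs) '' (𝔐.B l : Set 𝔐.Q)ᶜ)) := by
  refine (Lat.decVec_Lt (μ := muB 𝔐) (e := eB 𝔐) (π := π) (𝔐.mu' l)).neg.of_eq (fun _ => ?_)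
  exact (inr_compl_eq (𝔐.B l : Set 𝔐.Q) _ (fun v => Aff.mem_B_iff 𝔐 l v)).symm

/-! ### A general principle: sets of configurations defined through markers -/

/-- The marker map `y ↦ of (y * t * y⁻¹)`; `mk (xb α) = of (Tb α)` (`hac_Tb_eq`). -/
def mkr (y : 𝔐.Bs) : 𝔐.Hac := MHNN.of (y * Semi.t * y⁻¹)

theorem mkr_xb (α : 𝔐.Vec) : mkr (xb α) = MHNN.of (Tb α) := by
  unfold mkr
  rw [hac_Tb_eq]

/-- If `S` is r.e. in `Hac` then `{xb α | of (Tb α) ∈ S p}` is r.e. in `Bs`.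
(It is `range inr ∩ (fun y => y * t * y⁻¹) ⁻¹' (of ⁻¹' S p)`: `SemiEv.re_X`, `RESet.toBs`, `RESet.preimage` with the word map `(id * const t) * id⁻¹`.) -/
theorem re_of_marker {S : π → Set 𝔐.Hac} (h : RESet (muAc 𝔐) S) :
    RESet (muB 𝔐) (fun p => Lat.XS (eB 𝔐) {α | MHNN.of (Tb α) ∈ S p}) := by
  have hw : IsWordMap (muB 𝔐) (fun (_ : π) (y : 𝔐.Bs) => y * Semi.t * y⁻¹) :=
    (IsWordMap.id.mul (IsWordMap.const Semi.t)).mul IsWordMap.id.inv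
  refine ((SemiEv.re_X (μ := muB 𝔐) (π := π)).inter (RESet.preimage hw (RESet.toBs h))).of_eq (fun p => ?_)
  ext y
  constructor
  · rintro ⟨⟨q, rfl⟩, hq⟩
    refine ⟨Multiplicative.toAdd q, ?_, rfl⟩
    show MHNN.of (Tb (Multiplicative.toAdd q)) ∈ S p
    rw [hac_Tb_eq]
    exact hq
  · rintro ⟨α, hα, rfl⟩
    refine ⟨⟨Multiplicative.ofAdd α, rfl⟩, ?_⟩
    have h1 : MHNN.of (Tb α) ∈ S p := hα
    rw [hac_Tb_eq] at h1
    exact h1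

/-- The markers at an r.e. set of configurations form an r.e. subset of `Hac` (`RESet.image` of the same word map, then `RESet.ofBs`). -/
theorem re_markers {Z : π → Set 𝔐.Vec} (h : RESet (muB 𝔐) (fun p => Lat.XS (eB 𝔐) (Z p))) :
    RESet (muAc 𝔐) (fun p => (fun α => (MHNN.of (Tb α) : 𝔐.Hac)) '' Z p) := by
  have hw : IsWordMap (muB 𝔐) (fun (_ : π) (y : 𝔐.Bs) => y * Semi.t * y⁻¹) :=
    (IsWordMap.id.mul (IsWordMap.const Semi.t)).mul IsWordMap.id.inv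
  refine (RESet.ofBs (RESet.image hw h)).of_eq (fun p => ?_)
  ext y
  constructor
  · rintro ⟨_, ⟨_, ⟨α, hα, rfl⟩, rfl⟩, rfl⟩
    refine ⟨α, hα, ?_⟩
    show MHNN.of (Tb α) = _
    rw [hac_Tb_eq]; rfl
  · rintro ⟨α, hα, rfl⟩
    refine ⟨_, ⟨_, ⟨α, hα, rfl⟩, rfl⟩, ?_⟩
    show _ = MHNN.of (Tb α)
    rw [hac_Tb_eq]; rfl

/-- The subgroup generated by a set of stable letters is r.e. (finite generating set, `RESet.of_fg` or `RESet.closure (RESet.finite ..)`). -/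
theorem re_letters (J : Set (Fin 𝔐.nL)) :
    RESet (muAc 𝔐) (fun _ : π => (Subgroup.closure ((MHNN.t : Fin 𝔐.nL → 𝔐.Hac) '' J) : Set 𝔐.Hac)) := by
  exact RESet.closure (RESet.finite (μ := muAc 𝔐) (π := π) ((Set.toFinite J).image _))

variable (I : Inp 𝔐)

/-! ### C4: `Reach` -/

/-- (`Kac = iso ⁻¹' K` by `map_iso_Kac`; `K_fg`, `RESet.of_fg`, `RESet.toHac`.) -/
theorem re_Kac : RESet (muAc 𝔐) (fun _ : π => (I.Kac : Set 𝔐.Hac)) := by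
  refine (RESet.toHac (RESet.of_fg (μ := muS 𝔐) (π := π) I.K_fg)).of_eq (fun _ => ?_)
  ext g
  rw [← I.map_iso_Kac]
  constructor
  · rintro ⟨g', hg', e⟩
    have e' : g' = g := 𝔐.iso.injective e
    rw [← e']
    exact hg'
  · intro hg
    exact ⟨g, hg, rfl⟩

/-- (`MHNN.of_mem_sub_iff I.compat_SReach`, `hac_mem_closure_Tb_iff` or `SemiEv.mem_FFs_iff`; `pt` injective.) -/
theorem of_Tb_mem_Kac_iff (α : 𝔐.Vec) : (MHNN.of (Tb α) : 𝔐.Hac) ∈ I.Kac ↔ I.Reach α := by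
  unfold Inp.Kac
  rw [MHNN.of_mem_sub_iff I.compat_SReach]
  unfold Inp.SReach
  constructor
  · intro h
    obtain ⟨-, h2⟩ := (Inp.hac_mem_closure_Tb_iff _ _).1 h
    have hw : (Tb α : 𝔐.Bs).left.toWord = [(pt α, true)] := by
      show (FreeGroup.of (pt α)).toWord = _
      exact FreeGroup.toWord_of _
    obtain ⟨α', hα', e⟩ := h2 (pt α, true) (by rw [hw]; exact List.mem_singleton.2 rfl)
    have e' : α = α' := pt_bijective.1 e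
    rw [e']
    exact hα'
  · intro h
    exact Subgroup.subset_closure ⟨α, h, rfl⟩

/-- Terminal configurations different from `z`. -/
def TZ : Set 𝔐.Vec := {β | (∀ l ∈ I.JM, β ∈ {α' | ∃ β', 𝔐.Step l α' β'}ᶜ) ∧ β ∈ ({I.z} : Set 𝔐.Vec)ᶜ}

/-- (`Lat.DecVec.biInter` of the complements of `Lat.decVec_dom`, `DecVec.inter` with the complement of `Lat.decVec_singleton` (`RESet.singleton`).) -/
theorem decVec_TZ : Lat.DecVec (muB 𝔐) (eB 𝔐) (fun _ : π => TZ I) := by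
  have h1 : Lat.DecVec (muB 𝔐) (eB 𝔐)
      (fun _ : π => {v : 𝔐.Vec | ∀ l ∈ I.JM, v ∈ {α' | ∃ β', 𝔐.Step l α' β'}ᶜ}) :=
    Lat.DecVec.biInter (Z := fun l (_ : π) => {α' : 𝔐.Vec | ∃ β', 𝔐.Step l α' β'}ᶜ)
      eB_injective Lat.decVec_univ I.JM (fun l _ => (Lat.decVec_dom l).compl)
  have h2 : Lat.DecVec (muB 𝔐) (eB 𝔐) (fun _ : π => ({I.z} : Set 𝔐.Vec)ᶜ) :=
    (Lat.decVec_singleton (a := fun _ : π => I.z) (RESet.singleton _)).compl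
  exact (h1.inter eB_injective h2).of_eq (fun _ => rfl)

/-- Conjugation along a run: if `α →* β` by run letters then `r * of (Tb α) * r⁻¹ = of (Tb β)` for some `r ∈ ⟨t_l, l ∈ JM⟩` (induction, `t_mul_Tb`). -/
theorem exists_conj_of_run {J : Set (Fin 𝔐.nL)} {α β : 𝔐.Vec}
    (h : Relation.ReflTransGen (fun α β => ∃ l ∈ J, 𝔐.Step l α β) α β) :
    ∃ r ∈ Subgroup.closure ((MHNN.t : Fin 𝔐.nL → 𝔐.Hac) '' J),
      r * MHNN.of (Tb α) * r⁻¹ = (MHNN.of (Tb β) : 𝔐.Hac) := by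
  induction h with
  | refl => exact ⟨1, Subgroup.one_mem _, by simp⟩
  | tail _ hs ih =>
    obtain ⟨r, hr, e⟩ := ih
    obtain ⟨l, hl, hs⟩ := hs
    refine ⟨MHNN.t l * r, Subgroup.mul_mem _ (Subgroup.subset_closure ⟨l, hl, rfl⟩) hr, ?_⟩
    rw [mul_inv_rev, ← mul_assoc, mul_assoc (MHNN.t l) r, mul_assoc (MHNN.t l), e,
      t_mul_Tb hs, mul_assoc, mul_inv_cancel, mul_one]

/-- Every configuration runs into a terminal one (W1; strong induction on `meas α`). -/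
theorem exists_terminal (W1 : ∃ meas : 𝔐.Vec → ℕ, ∀ l ∈ I.JM, ∀ α β, 𝔐.Step l α β → meas β < meas α) (α : 𝔐.Vec) :
    ∃ β, Relation.ReflTransGen (fun α β => ∃ l ∈ I.JM, 𝔐.Step l α β) α β ∧
      ∀ l ∈ I.JM, ¬ ∃ β', 𝔐.Step l β β' := by
  obtain ⟨meas, hm⟩ := W1
  induction hn : meas α using Nat.strong_induction_on generalizing α with
  | _ n ih =>
    by_cases hT : ∀ l ∈ I.JM, ¬ ∃ β', 𝔐.Step l α β'
    · exact ⟨α, Relation.ReflTransGen.refl, hT⟩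
    · push Not at hT
      obtain ⟨l, hl, β', hs⟩ := hT
      obtain ⟨β, h1, h2⟩ := ih (meas β') (hn ▸ hm l hl α β' hs) β' rfl
      exact ⟨β, Relation.ReflTransGen.head ⟨l, hl, hs⟩ h1, h2⟩

/-- `→`: `exists_terminal`, `exists_conj_of_run`; `β ≠ z` because `α` does not reach `z`.
`←`: if `Reach α` then `of (Tb α) ∈ Kac`; `r ∈ Kac` (`closure (t '' JM) ≤ Sub`), so `of (Tb β) ∈ Kac`, `Reach β`; `β` is terminal, so `β = z` (`Relation.ReflTransGen.cases_head`). -/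
theorem not_reach_iff (W1 : ∃ meas : 𝔐.Vec → ℕ, ∀ l ∈ I.JM, ∀ α β, 𝔐.Step l α β → meas β < meas α) (α : 𝔐.Vec) :
    ¬ I.Reach α ↔ ∃ r ∈ Subgroup.closure ((MHNN.t : Fin 𝔐.nL → 𝔐.Hac) '' I.JM),
      r * MHNN.of (Tb α) * r⁻¹ ∈ (fun β => (MHNN.of (Tb β) : 𝔐.Hac)) '' TZ I := by
  constructor
  · intro hα
    obtain ⟨β, hrun, hT⟩ := exists_terminal I W1 α
    obtain ⟨r, hr, e⟩ := exists_conj_of_run hrun
    refine ⟨r, hr, β, ⟨fun l hl => hT l hl, ?_⟩, e.symm⟩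
    intro hz
    have hz' : β = I.z := hz
    rw [hz'] at hrun
    exact hα hrun
  · rintro ⟨r, hr, β, ⟨hT, hz⟩, e⟩ hα
    have hle : Subgroup.closure ((MHNN.t : Fin 𝔐.nL → 𝔐.Hac) '' I.JM) ≤ I.Kac := by
      unfold Inp.Kac MHNN.Sub
      exact Subgroup.closure_mono Set.subset_union_right
    have hr' : r ∈ I.Kac := hle hr
    have h1 : (MHNN.of (Tb β) : 𝔐.Hac) ∈ I.Kac := by
      have e' : (MHNN.of (Tb β) : 𝔐.Hac) = r * MHNN.of (Tb α) * r⁻¹ := e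
      rw [e']
      exact Subgroup.mul_mem _ (Subgroup.mul_mem _ hr' ((of_Tb_mem_Kac_iff I α).2 hα))
        (Subgroup.inv_mem _ hr')
    have h2 : I.Reach β := (of_Tb_mem_Kac_iff I β).1 h1
    rcases Relation.ReflTransGen.cases_head h2 with h3 | ⟨γ, ⟨l, hl, hs⟩, -⟩
    · exact hz h3
    · exact hT l hl ⟨γ, hs⟩

/-- C4. `pos`: `re_of_marker (re_Kac I)`, `of_Tb_mem_Kac_iff`. `neg`: `re_of_marker (RESet.conj (re_letters I.JM) (re_markers (decVec_TZ I).pos))`, `not_reach_iff`. -/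
theorem decVec_reach (W1 : ∃ meas : 𝔐.Vec → ℕ, ∀ l ∈ I.JM, ∀ α β, 𝔐.Step l α β → meas β < meas α) :
    Lat.DecVec (muB 𝔐) (eB 𝔐) (fun _ : π => {α | I.Reach α}) := by
  refine ⟨(re_of_marker (re_Kac (π := π) I)).of_eq (fun _ => ?_),
    (re_of_marker (RESet.conj (re_letters (π := π) I.JM)
      (re_markers (decVec_TZ (π := π) I).pos))).of_eq (fun _ => ?_)⟩
  · congr 1
    ext α
    exact of_Tb_mem_Kac_iff I α
  · congr 1
    ext α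
    exact (not_reach_iff I W1 α).symm

/-! ### C5: `InC` -/

variable {ξ : π → 𝔐.Vec}

/-- From `Bs` to `Hs`: `{inr (x (ξ q))}` is r.e. (`RESet.ofBs`, `RESet.toHs`, `iso_xb`; the image of a singleton is a singleton). -/
theorem re_x_of_xb (hsp : RESet (muB 𝔐) (fun q => ({xb (ξ q)} : Set 𝔐.Bs))) :
    RESet (muS 𝔐) (fun q => ({inr (x (ξ q))} : Set 𝔐.Hs)) := by
  refine (hsp.ofBs.toHs).of_eq (fun q => ?_)
  rw [Set.image_singleton, Set.image_singleton, iso_xb]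

/-- From `Hs` to `Bs`: (`RESet.toHac`, `RESet.toBs`: the preimage of `{inr (x (ξ q))}` under the injective map `iso ∘ of` is `{xb (ξ q)}`; `iso_xb`, `MHNN.of_injective`.) -/
theorem re_xb_of_x (hsp : RESet (muS 𝔐) (fun q => ({inr (x (ξ q))} : Set 𝔐.Hs))) :
    RESet (muB 𝔐) (fun q => ({xb (ξ q)} : Set 𝔐.Bs)) := by
  refine (hsp.toHac.toBs).of_eq (fun q => ?_)
  ext y
  constructor
  · intro hy
    have h1 : 𝔐.iso (MHNN.of y) = inr (x (ξ q)) := hy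
    rw [← iso_xb] at h1
    exact MHNN.of_injective (𝔐.iso.injective h1)
  · intro hy
    rw [Set.mem_singleton_iff.1 hy]
    exact iso_xb (ξ q)

/-- `P'ac (ξ q)` is r.e.: `P'ac ξ = closure ({of (Tb ξ)} ∪ t '' Jin)`.
(`⊇` clear. `⊆`: transport by `iso`: `map_iso_P'ac`, `P' ξ = SubPt (closure (lam '' Jin)) (cf ξ) = closure (inr '' (lam '' Jin) ∪ {tt (cf ξ)})` by `Inp.subPt_closure_eq`, `iso_lam`, `iso_Tb`.)
Then `RESet.closure` of the union of `re_markers` of the singleton family `{ξ q}` and a finite set. -/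
theorem P'ac_eq_closure (ζ : 𝔐.Vec) : I.P'ac ζ =
    Subgroup.closure ({(MHNN.of (Tb ζ) : 𝔐.Hac)} ∪ (MHNN.t : Fin 𝔐.nL → 𝔐.Hac) '' I.Jin) := by
  apply Subgroup.map_injective (f := (𝔐.iso : 𝔐.Hac →* 𝔐.Hs)) 𝔐.iso.injective
  rw [Inp.map_iso_P'ac, MonoidHom.map_closure]
  unfold Inp.P'
  rw [Inp.subPt_closure_eq]
  congr 1
  ext y
  constructor
  · rintro (⟨_, ⟨l, hl, rfl⟩, rfl⟩ | hy)
    · exact ⟨MHNN.t l, Or.inr ⟨l, hl, rfl⟩, iso_lam l⟩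
    · rw [Set.mem_singleton_iff.1 hy]
      exact ⟨MHNN.of (Tb ζ), Or.inl rfl, iso_Tb ζ⟩
  · rintro ⟨_, (hy | ⟨l, hl, rfl⟩), rfl⟩
    · rw [Set.mem_singleton_iff.1 hy]
      exact Or.inr (iso_Tb ζ)
    · exact Or.inl ⟨_, ⟨l, hl, rfl⟩, (iso_lam l).symm⟩

theorem re_P'ac (hsp : RESet (muB 𝔐) (fun q => ({xb (ξ q)} : Set 𝔐.Bs))) :
    RESet (muAc 𝔐) (fun q => (I.P'ac (ξ q) : Set 𝔐.Hac)) := by
  have h1 : RESet (muB 𝔐) (fun q => Lat.XS (eB 𝔐) ({ξ q} : Set 𝔐.Vec)) :=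
    hsp.of_eq (fun q => by unfold Lat.XS; rw [Set.image_singleton]; rfl)
  have h2 := re_markers h1
  have h3 : RESet (muAc 𝔐) (fun _ : π => (MHNN.t : Fin 𝔐.nL → 𝔐.Hac) '' I.Jin) :=
    RESet.finite ((Set.toFinite I.Jin).image _)
  refine (RESet.closure (h2.union h3)).of_eq (fun q => ?_)
  rw [P'ac_eq_closure, Set.image_singleton]

/-- (`MHNN.of_mem_sub_iff (I.compat_SIn hζ)`, `hac_mem_closure_Tb_iff`.) -/
theorem of_Tb_mem_P'ac_iff {ζ : 𝔐.Vec} (hζ : I.Start ζ) (α : 𝔐.Vec) :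
    (MHNN.of (Tb α) : 𝔐.Hac) ∈ I.P'ac ζ ↔ α ∈ I.InC ζ := by
  unfold Inp.P'ac
  rw [MHNN.of_mem_sub_iff (I.compat_SIn hζ)]
  unfold Inp.SIn
  constructor
  · intro h
    obtain ⟨-, h2⟩ := (Inp.hac_mem_closure_Tb_iff _ _).1 h
    have hw : (Tb α : 𝔐.Bs).left.toWord = [(pt α, true)] := by
      show (FreeGroup.of (pt α)).toWord = _
      exact FreeGroup.toWord_of _
    obtain ⟨α', hα', e⟩ := h2 (pt α, true) (by rw [hw]; exact List.mem_singleton.2 rfl)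
    have e1 : α = α' := pt_bijective.1 e
    rw [e1]
    exact hα'
  · intro h
    exact Subgroup.subset_closure ⟨α, h, rfl⟩

/-- Configurations in no image of an input letter, different from `ζ`. -/
def IZ (ζ : 𝔐.Vec) : Set 𝔐.Vec :=
  {β | (∀ l ∈ I.Jin, β ∈ {β' | ∃ α', 𝔐.Step l α' β'}ᶜ) ∧ β ∈ ({ζ} : Set 𝔐.Vec)ᶜ}

theorem decVec_IZ (hsp : RESet (muB 𝔐) (fun q => ({xb (ξ q)} : Set 𝔐.Bs))) :
    Lat.DecVec (muB 𝔐) (eB 𝔐) (fun q => IZ I (ξ q)) := by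
  have h1 : Lat.DecVec (muB 𝔐) (eB 𝔐)
      (fun _ : π => {v | ∀ l ∈ I.Jin, v ∈ {β' | ∃ α', 𝔐.Step l α' β'}ᶜ}) :=
    Lat.DecVec.biInter eB_injective Lat.decVec_univ I.Jin
      (Z := fun l _ => {β' | ∃ α', 𝔐.Step l α' β'}ᶜ) (fun l _ => (Lat.decVec_ran l).compl)
  have h2 : Lat.DecVec (muB 𝔐) (eB 𝔐) (fun q => ({ξ q} : Set 𝔐.Vec)ᶜ) :=
    (Lat.decVec_singleton (e := eB 𝔐) (a := ξ) hsp).compl
  exact (h1.inter eB_injective h2).of_eq (fun q => rfl)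

/-- Every configuration comes from a source (W2; strong induction on `meas α`). -/
theorem exists_source (W2 : ∃ meas : 𝔐.Vec → ℕ, ∀ l ∈ I.Jin, ∀ α β, 𝔐.Step l α β → meas α < meas β) (α : 𝔐.Vec) :
    ∃ β, Relation.ReflTransGen (fun α β => ∃ l ∈ I.Jin, 𝔐.Step l α β) β α ∧
      ∀ l ∈ I.Jin, ¬ ∃ α', 𝔐.Step l α' β := by
  obtain ⟨meas, hm⟩ := W2
  have key : ∀ n : ℕ, ∀ α : 𝔐.Vec, meas α = n →
      ∃ β, Relation.ReflTransGen (fun α β => ∃ l ∈ I.Jin, 𝔐.Step l α β) β α ∧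
        ∀ l ∈ I.Jin, ¬ ∃ α', 𝔐.Step l α' β := by
    intro n
    induction n using Nat.strong_induction_on with
    | _ n ih =>
      intro α hα
      by_cases h : ∃ l ∈ I.Jin, ∃ α', 𝔐.Step l α' α
      · obtain ⟨l, hl, α', hs⟩ := h
        obtain ⟨β, hβ, hβ'⟩ := ih (meas α') (by rw [← hα]; exact hm l hl α' α hs) α' rfl
        exact ⟨β, hβ.tail ⟨l, hl, hs⟩, hβ'⟩
      · exact ⟨α, Relation.ReflTransGen.refl, fun l hl h' => h ⟨l, hl, h'⟩⟩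
  exact key _ α rfl

/-- `InC` is closed under input steps, and `ζ ∈ InC ζ`; an element of `InC ζ` is `ζ` or lies in the image of an input letter (unfold `InC`, `Path`). -/
theorem inC_of_run {ζ β α : 𝔐.Vec} (hβ : β ∈ I.InC ζ)
    (h : Relation.ReflTransGen (fun α β => ∃ l ∈ I.Jin, 𝔐.Step l α β) β α) : α ∈ I.InC ζ := by
  induction h with
  | refl => exact hβ
  | tail _ hs ih =>
    obtain ⟨l, hl, hs⟩ := hs
    obtain ⟨w, hw, hp⟩ := ih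
    refine ⟨(l, true) :: w, ?_, _, hp, hs⟩
    intro y hy
    rcases List.mem_cons.1 hy with rfl | hy
    · exact ⟨hl, rfl⟩
    · exact hw y hy

theorem inC_cases {ζ β : 𝔐.Vec} (hβ : β ∈ I.InC ζ) : β = ζ ∨ ∃ l ∈ I.Jin, ∃ α', 𝔐.Step l α' β := by
  obtain ⟨w, hw, hp⟩ := hβ
  cases w with
  | nil =>
    have e : ζ = β := hp
    exact Or.inl e.symm
  | cons y w' =>
    obtain ⟨γ, -, h2⟩ := hp
    obtain ⟨l', e'⟩ := y
    obtain ⟨hl', he⟩ := hw (l', e') List.mem_cons_self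
    simp only at hl' he
    subst he
    exact Or.inr ⟨l', hl', γ, h2⟩

/-- `→`: `exists_source` gives `β →* α`, `β` a source; `β ≠ ζ` (else `α ∈ InC ζ` by `inC_of_run`); `exists_conj_of_run` gives `r' * of (Tb β) * r'⁻¹ = of (Tb α)`; take `r = r'⁻¹`.
`←`: if `α ∈ InC ζ` then `of (Tb α) ∈ P'ac ζ`, `r ∈ P'ac ζ`, so `of (Tb β) ∈ P'ac ζ`, `β ∈ InC ζ`, contradiction with `inC_cases`. -/
theorem not_inC_iff (W2 : ∃ meas : 𝔐.Vec → ℕ, ∀ l ∈ I.Jin, ∀ α β, 𝔐.Step l α β → meas α < meas β)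
    {ζ : 𝔐.Vec} (hζ : I.Start ζ) (α : 𝔐.Vec) :
    α ∉ I.InC ζ ↔ ∃ r ∈ Subgroup.closure ((MHNN.t : Fin 𝔐.nL → 𝔐.Hac) '' I.Jin),
      r * MHNN.of (Tb α) * r⁻¹ ∈ (fun β => (MHNN.of (Tb β) : 𝔐.Hac)) '' IZ I ζ := by
  constructor
  · intro hα
    obtain ⟨β, hrun, hsrc⟩ := exists_source I W2 α
    obtain ⟨r', hr', hc⟩ := exists_conj_of_run hrun
    refine ⟨r'⁻¹, inv_mem hr', β, ⟨fun l hl => hsrc l hl, ?_⟩, ?_⟩
    · intro hβ
      have e : β = ζ := hβ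
      apply hα
      refine inC_of_run I (β := β) ?_ hrun
      rw [e]
      exact ⟨[], by simp, rfl⟩
    · show (MHNN.of (Tb β) : 𝔐.Hac) = r'⁻¹ * MHNN.of (Tb α) * r'⁻¹⁻¹
      rw [← hc]
      group
  · rintro ⟨r, hr, β, ⟨hβ1, hβ2⟩, hc⟩ hα
    have hc' : (MHNN.of (Tb β) : 𝔐.Hac) = r * MHNN.of (Tb α) * r⁻¹ := hc
    have h1 : (MHNN.of (Tb α) : 𝔐.Hac) ∈ I.P'ac ζ := (of_Tb_mem_P'ac_iff I hζ α).2 hα
    have hle : Subgroup.closure ((MHNN.t : Fin 𝔐.nL → 𝔐.Hac) '' I.Jin) ≤ I.P'ac ζ := by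
      rw [P'ac_eq_closure]
      exact Subgroup.closure_mono Set.subset_union_right
    have h2 : (MHNN.of (Tb β) : 𝔐.Hac) ∈ I.P'ac ζ := by
      rw [hc']
      exact mul_mem (mul_mem (hle hr) h1) (inv_mem (hle hr))
    have h3 : β ∈ I.InC ζ := (of_Tb_mem_P'ac_iff I hζ β).1 h2
    rcases inC_cases I h3 with e | ⟨l, hl, α', hs⟩
    · exact hβ2 e
    · exact hβ1 l hl ⟨α', hs⟩

/-- C5. -/
theorem decVec_inC (W2 : ∃ meas : 𝔐.Vec → ℕ, ∀ l ∈ I.Jin, ∀ α β, 𝔐.Step l α β → meas α < meas β)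
    (hξ : ∀ q, I.Start (ξ q)) (hsp : RESet (muB 𝔐) (fun q => ({xb (ξ q)} : Set 𝔐.Bs))) :
    Lat.DecVec (muB 𝔐) (eB 𝔐) (fun q => I.InC (ξ q)) := by
  refine ⟨(re_of_marker (re_P'ac I hsp)).of_eq (fun q => ?_),
    (re_of_marker (RESet.conj (re_letters I.Jin) (re_markers (decVec_IZ I hsp).pos))).of_eq
      (fun q => ?_)⟩
  · congr 1
    ext α
    exact of_Tb_mem_P'ac_iff I (hξ q) α
  · congr 1
    ext α
    exact (not_inC_iff I W2 (hξ q) α).symm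

end Cfg

end Claimed.Agent.R152.EV
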