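/-
Row 152, module EV (helper531), step (T).  `Hac ∖ 1`, `Hac ∖ Kac`, `Hac ∖ P'ac (ξ q)` ARE R.E.; transport to `Hs`.
Instantiation of `MhnnRE.re_ne_one`, `MhnnRE.re_sub_compl` for `Hac = MHNN Bs Aac Bac phiac`; every base set is an atom `(FFs 𝒰 * Sg 𝒱 Q₁ * FFs ∅)ᶜ` of `Bs = Semi Q ⊥`.
STATEMENTS ARE FROZEN. Proofs are in the docstrings.
-/
import Claimed.Agent.R152.EV.Cfg
import Claimed.Agent.R152.EV.MhnnRE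

set_option autoImplicit false

noncomputable section

namespace Claimed.Agent.R152.EV

open Claimed.Agent.R152.H Claimed.Agent.R152.HW Claimed.Agent.R152.HW.Aff SemidirectProduct
open scoped Pointwise Classical

namespace HacEv

variable {𝔐 : Aff} {π : Type*} [Primcodable π]

/-- Domain of a letter. -/
def dom (l : Fin 𝔐.nL) : Set 𝔐.Vec := {α' | ∃ β', 𝔐.Step l α' β'}

/-- Range of a letter. -/
def ran (l : Fin 𝔐.nL) : Set 𝔐.Vec := {β' | ∃ α', 𝔐.Step l α' β'}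

/-! ### Set identities in `Bs` -/

/-- (`mem_Aac_iff`.) -/
theorem Aac_eq (l : Fin 𝔐.nL) : (𝔐.Aac l : Set 𝔐.Bs) = SemiEv.Sg (pt '' dom l) (𝔐.A l : Set 𝔐.Q) := by
  ext y
  rw [SetLike.mem_coe, mem_Aac_iff]
  unfold SemiEv.Sg dom
  refine and_congr Iff.rfl (forall₂_congr fun p _ => ?_)
  constructor
  · rintro ⟨α, β, hp, hs⟩
    exact ⟨α, ⟨β, hs⟩, hp.symm⟩
  · rintro ⟨α, ⟨β, hs⟩, hp⟩
    exact ⟨α, β, hp.symm, hs⟩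

/-- (`mem_Bac_iff`.) -/
theorem Bac_eq (l : Fin 𝔐.nL) : (𝔐.Bac l : Set 𝔐.Bs) = SemiEv.Sg (pt '' ran l) (𝔐.B l : Set 𝔐.Q) := by
  ext y
  rw [SetLike.mem_coe, mem_Bac_iff]
  unfold SemiEv.Sg ran
  refine and_congr Iff.rfl (forall₂_congr fun p _ => ?_)
  constructor
  · rintro ⟨α, β, hp, hs⟩
    exact ⟨β, ⟨α, hs⟩, hp.symm⟩
  · rintro ⟨β, ⟨α, hs⟩, hp⟩
    exact ⟨α, β, hp.symm, hs⟩

/-- (`y.right = 1`, `y.left.toWord = []`, so `y.left = 1` (`FreeGroup.toWord_eq_nil_iff`) and `y = 1`.) -/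
theorem Sg_empty_one : (SemiEv.Sg (∅ : Set (𝔐.Q ⧸ (⊥ : Subgroup 𝔐.Q))) ({1} : Set 𝔐.Q) : Set 𝔐.Bs) = {1} := by
  ext y
  unfold SemiEv.Sg
  simp only [Set.mem_ofPred_eq, Set.mem_singleton_iff, Set.mem_empty_iff_false]
  constructor
  · rintro ⟨hr, hw⟩
    have hnil : y.left.toWord = [] := List.eq_nil_iff_forall_not_mem.2 (fun p hp => hw p hp)
    have hl : y.left = 1 := FreeGroup.toWord_eq_nil_iff.1 hnil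
    exact SemidirectProduct.ext hl hr
  · rintro rfl
    refine ⟨rfl, fun p hp => ?_⟩
    simp at hp

/-- (`FFs ∅ = closure ∅ = ⊥`.) -/
theorem mul_FFs_empty (T : Set 𝔐.Bs) :
    T * (SemiEv.FFs (∅ : Set (𝔐.Q ⧸ (⊥ : Subgroup 𝔐.Q))) : Set 𝔐.Bs) = T := by
  have h : (SemiEv.FFs (∅ : Set (𝔐.Q ⧸ (⊥ : Subgroup 𝔐.Q))) : Subgroup 𝔐.Bs) = ⊥ := by
    unfold SemiEv.FFs
    rw [Set.image_empty, Subgroup.closure_empty]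
  rw [h, Subgroup.coe_bot, Set.mul_singleton]
  simp

theorem FFs_empty_mul (T : Set 𝔐.Bs) :
    (SemiEv.FFs (∅ : Set (𝔐.Q ⧸ (⊥ : Subgroup 𝔐.Q))) : Set 𝔐.Bs) * T = T := by
  have h : (SemiEv.FFs (∅ : Set (𝔐.Q ⧸ (⊥ : Subgroup 𝔐.Q))) : Subgroup 𝔐.Bs) = ⊥ := by
    unfold SemiEv.FFs
    rw [Set.image_empty, Subgroup.closure_empty]
  rw [h, Subgroup.coe_bot, Set.singleton_mul]
  simp

/-- (`Tb = tt ∘ pt`, `Set.image_image`.) -/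
theorem closure_Tb_eq (Z : Set 𝔐.Vec) :
    Subgroup.closure ((Tb : 𝔐.Vec → 𝔐.Bs) '' Z) = SemiEv.FFs (pt '' Z) := by
  unfold SemiEv.FFs
  rw [Set.image_image]
  rfl

/-! ### The base sets are r.e. -/

/-- THE GENERAL BASE SET: `of '' (FFs 𝒰 * Sg 𝒱 Q₁)ᶜ`.  (`SemiEv.re_atom Cfg.re_compl_bot h𝒰 h𝒱 DecPts.empty hQ`, `mul_FFs_empty`, `RESet.ofBs`.) -/
theorem re_base {𝒰 𝒱 : π → Set (𝔐.Q ⧸ (⊥ : Subgroup 𝔐.Q))} (h𝒰 : SemiEv.DecPts (muB 𝔐) 𝒰)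
    (h𝒱 : SemiEv.DecPts (muB 𝔐) 𝒱) {Q₁ : π → Set 𝔐.Q}
    (hQ : RESet (muB 𝔐) (fun p => ((inr : 𝔐.Q → 𝔐.Bs) '' (Q₁ p)ᶜ))) :
    RESet (muAc 𝔐) (fun p => (MHNN.of : 𝔐.Bs → 𝔐.Hac) ''
      ((SemiEv.FFs (𝒰 p) : Set 𝔐.Bs) * SemiEv.Sg (𝒱 p) (Q₁ p))ᶜ) :=
  RESet.ofBs ((SemiEv.re_atom Cfg.re_compl_bot h𝒰 h𝒱 SemiEv.DecPts.empty hQ).of_eq
    (fun p => by rw [mul_FFs_empty]))

theorem decPts_dom (l : Fin 𝔐.nL) : SemiEv.DecPts (muB 𝔐) (fun _ : π => pt '' dom l) :=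
  Cfg.decPts_of_decVec (Lat.decVec_dom l)

theorem decPts_ran (l : Fin 𝔐.nL) : SemiEv.DecPts (muB 𝔐) (fun _ : π => pt '' ran l) :=
  Cfg.decPts_of_decVec (Lat.decVec_ran l)

/-- The base group. -/
theorem re_G : RESet (muAc 𝔐) (fun _ : π => Set.range (MHNN.of : 𝔐.Bs → 𝔐.Hac)) :=
  (RESet.ofBs (RESet.univ (μ := muB 𝔐) (π := π))).of_eq (fun _ => Set.image_univ)

/-- `S * As s` for `S = FFs 𝒰`: an atom. (`s.2 = true`: `As = Aac`, `Aac_eq`; `s.2 = false`: `As = Bac`, `Bac_eq`; `MhnnEv.As_true`, `As_false`.) -/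
theorem re_FFs_mul_As_compl {𝒰 : π → Set (𝔐.Q ⧸ (⊥ : Subgroup 𝔐.Q))} (h𝒰 : SemiEv.DecPts (muB 𝔐) 𝒰)
    (s : Fin 𝔐.nL × Bool) :
    RESet (muAc 𝔐) (fun p => (MHNN.of : 𝔐.Bs → 𝔐.Hac) ''
      ((SemiEv.FFs (𝒰 p) : Set 𝔐.Bs) * (MhnnEv.As 𝔐.Aac 𝔐.Bac s : Set 𝔐.Bs))ᶜ) := by
  rcases s with ⟨l, _ | _⟩
  · exact (re_base h𝒰 (decPts_ran l) (Cfg.re_compl_B l)).of_eq (fun p => by
      rw [MhnnEv.As_false, Bac_eq])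
  · exact (re_base h𝒰 (decPts_dom l) (Cfg.re_compl_A l)).of_eq (fun p => by
      rw [MhnnEv.As_true, Aac_eq])

/-- `G ∖ As s`. -/
theorem re_As_compl (s : Fin 𝔐.nL × Bool) :
    RESet (muAc 𝔐) (fun _ : π => (MHNN.of : 𝔐.Bs → 𝔐.Hac) '' (MhnnEv.As 𝔐.Aac 𝔐.Bac s : Set 𝔐.Bs)ᶜ) :=
  (re_FFs_mul_As_compl (π := π) SemiEv.DecPts.empty s).of_eq (fun _ => by rw [FFs_empty_mul])

/-- `G ∖ FFs 𝒰`. -/
theorem re_FFs_compl {𝒰 : π → Set (𝔐.Q ⧸ (⊥ : Subgroup 𝔐.Q))} (h𝒰 : SemiEv.DecPts (muB 𝔐) 𝒰) :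
    RESet (muAc 𝔐) (fun p => (MHNN.of : 𝔐.Bs → 𝔐.Hac) '' (SemiEv.FFs (𝒰 p) : Set 𝔐.Bs)ᶜ) :=
  (re_base h𝒰 SemiEv.DecPts.empty (Q₁ := fun _ => {1}) Cfg.re_compl_one).of_eq (fun p => by
    rw [Sg_empty_one, Set.mul_singleton]; simp)

/-- `G ∖ 1`. -/
theorem re_base_ne_one :
    RESet (muAc 𝔐) (fun _ : π => (MHNN.of : 𝔐.Bs → 𝔐.Hac) '' {g : 𝔐.Bs | g ≠ 1}) :=
  (re_base (π := π) SemiEv.DecPts.empty SemiEv.DecPts.empty (Q₁ := fun _ => {1})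
    Cfg.re_compl_one).of_eq (fun _ => by
      rw [FFs_empty_mul, Sg_empty_one]; rfl)

/-! ### The three theorems in `Hac` -/

/-- (T1) -/
theorem re_ne_one : RESet (muAc 𝔐) (fun _ : π => {x : 𝔐.Hac | x ≠ 1}) :=
  MhnnEv.re_ne_one re_G re_As_compl re_base_ne_one

/-- The general form: `Sub (closure (Tb '' Z p)) J`. -/
theorem re_sub_compl {Z : π → Set 𝔐.Vec} (hZ : Lat.DecVec (muB 𝔐) (Cfg.eB 𝔐) Z) {J : Set (Fin 𝔐.nL)}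
    (hc : ∀ p, MHNN.Compat 𝔐.phiac (Subgroup.closure ((Tb : 𝔐.Vec → 𝔐.Bs) '' Z p)) J)
    (hSub : RESet (muAc 𝔐) (fun p =>
      (MHNN.Sub 𝔐.phiac (Subgroup.closure ((Tb : 𝔐.Vec → 𝔐.Bs) '' Z p)) J : Set 𝔐.Hac))) :
    RESet (muAc 𝔐) (fun p =>
      (MHNN.Sub 𝔐.phiac (Subgroup.closure ((Tb : 𝔐.Vec → 𝔐.Bs) '' Z p)) J : Set 𝔐.Hac)ᶜ) :=
  MhnnEv.re_sub_compl re_G re_As_compl hc hSub
    ((re_FFs_compl (Cfg.decPts_of_decVec hZ)).of_eq (fun p => by rw [closure_Tb_eq]))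
    (fun s _ => (re_FFs_mul_As_compl (Cfg.decPts_of_decVec hZ) (s.1, !s.2)).of_eq
      (fun p => by rw [closure_Tb_eq]))

variable (I : Inp 𝔐)

/-- (T2) -/
theorem re_Kac_compl (W1 : ∃ meas : 𝔐.Vec → ℕ, ∀ l ∈ I.JM, ∀ α β, 𝔐.Step l α β → meas β < meas α) :
    RESet (muAc 𝔐) (fun _ : π => (I.Kac : Set 𝔐.Hac)ᶜ) :=
  re_sub_compl (Cfg.decVec_reach I W1) (fun _ => I.compat_SReach) (Cfg.re_Kac I)

/-- (T2') -/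
theorem re_P'ac_compl (W2 : ∃ meas : 𝔐.Vec → ℕ, ∀ l ∈ I.Jin, ∀ α β, 𝔐.Step l α β → meas α < meas β)
    {ξ : π → 𝔐.Vec} (hξ : ∀ q, I.Start (ξ q)) (hsp : RESet (muB 𝔐) (fun q => ({xb (ξ q)} : Set 𝔐.Bs))) :
    RESet (muAc 𝔐) (fun q => (I.P'ac (ξ q) : Set 𝔐.Hac)ᶜ) :=
  re_sub_compl (Cfg.decVec_inC I W2 hξ hsp) (fun q => I.compat_SIn (hξ q)) (Cfg.re_P'ac I hsp)

/-! ### Transport to `Hs` -/

/-- The image of a complement under the bijection `iso`. -/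
theorem iso_image_compl (L : Subgroup 𝔐.Hac) :
    (𝔐.iso : 𝔐.Hac → 𝔐.Hs) '' (L : Set 𝔐.Hac)ᶜ = ((L.map (𝔐.iso : 𝔐.Hac →* 𝔐.Hs) : Subgroup 𝔐.Hs) : Set 𝔐.Hs)ᶜ := by
  rw [Set.image_compl_eq 𝔐.iso.bijective]
  rfl

theorem re_ne_one_Hs : RESet (muS 𝔐) (fun _ : π => {h : 𝔐.Hs | h ≠ 1}) :=
  (RESet.toHs (re_ne_one (𝔐 := 𝔐) (π := π))).of_eq (fun _ => by
    ext h
    constructor
    · rintro ⟨x, hx, rfl⟩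
      exact fun e => hx ((map_eq_one_iff _ 𝔐.iso.injective).1 e)
    · intro hh
      exact ⟨𝔐.iso.symm h, fun e => hh (by rw [← 𝔐.iso.apply_symm_apply h, e, map_one]),
        𝔐.iso.apply_symm_apply h⟩)

theorem re_K_compl (W1 : ∃ meas : 𝔐.Vec → ℕ, ∀ l ∈ I.JM, ∀ α β, 𝔐.Step l α β → meas β < meas α) :
    RESet (muS 𝔐) (fun _ : π => (I.K : Set 𝔐.Hs)ᶜ) :=
  (RESet.toHs (re_Kac_compl (π := π) I W1)).of_eq (fun _ => by rw [iso_image_compl, I.map_iso_Kac])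

theorem re_P'_compl (W2 : ∃ meas : 𝔐.Vec → ℕ, ∀ l ∈ I.Jin, ∀ α β, 𝔐.Step l α β → meas α < meas β)
    {ξ : π → 𝔐.Vec} (hξ : ∀ q, I.Start (ξ q)) (hsp : RESet (muB 𝔐) (fun q => ({xb (ξ q)} : Set 𝔐.Bs))) :
    RESet (muS 𝔐) (fun q => (I.P' (ξ q) : Set 𝔐.Hs)ᶜ) :=
  (RESet.toHs (re_P'ac_compl I W2 hξ hsp)).of_eq (fun q => by rw [iso_image_compl, I.map_iso_P'ac])

end HacEv

end Claimed.Agent.R152.EV
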