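/-
Row 152, module EV, part (VI) (helper145): THE FREE GROUP PART.
`Mark.free m` = the free marking of `FreeGroup (Fin m)`.  Every subset of a free group given by an r.e. condition on REDUCED words is an
`RESet` (`RESet.of_toWord`: `FreeGroup.reduce` is primitive recursive, `A.primrec_reduce`).  Hence, for a block code `c`:
`F ∖ U₀` (`U₀ = range blkHom`) `= U₀ · Rep` (22's `HW/Rep.lean`) and `F ∖ F(J) U₀ = F(J) · ((F ∖ U₀) ∩ {no J-letter in front})` are `RESet`s.
-/
import Claimed.Agent.R152.EV.MarkFP
import Claimed.Agent.R152.HW.Rep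
import Claimed.Agent.R152.H.SemiPt

set_option autoImplicit false

namespace Claimed.Agent.R152.EV

open Claimed.Agent.R152.RE Claimed.Agent.R152.A Claimed.Agent.R152.HW Claimed.Agent.R152.H
open scoped Pointwise

variable {π : Type*} [Primcodable π] {m : ℕ}

theorem val_sgn_of (w : W m) :
    val (sgn (FreeGroup.of : Fin m → FreeGroup (Fin m))) w = FreeGroup.mk w := by
  induction w with
  | nil => rfl
  | cons a w ih =>
    rw [val_cons, ih]
    rcases a with ⟨i, _ | _⟩
    · simp [sgn, FreeGroup.of, FreeGroup.inv_mk, FreeGroup.invRev]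
    · simp [sgn, FreeGroup.of]

/-- The free marking. -/
def Mark.free (m : ℕ) : Mark (Fin m × Bool) (FreeGroup (Fin m)) where
  ν := sgn FreeGroup.of
  inv := fun a => (a.1, !a.2)
  ν_inv := sgn_not _
  surj := fun x => ⟨x.toWord, by rw [val_sgn_of, FreeGroup.mk_toWord]⟩
  inv_primrec := Primrec.dom_finite _
  wp := by
    have h : REPred fun w : W m => FreeGroup.reduce w = [] :=
      re_eq primrec_reduce.to_comp (Computable.const [])
    refine h.of_eq fun w => ?_
    rw [val_sgn_of, ← FreeGroup.toWord_eq_nil_iff, FreeGroup.toWord_mk]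

@[simp] theorem Mark.free_ev (w : W m) : (Mark.free m).ev w = FreeGroup.mk w := val_sgn_of w

/-- A subset of the free group given by an r.e. condition on the reduced word. -/
theorem RESet.of_toWord {C : π → W m → Prop} (hC : RELang C) :
    RESet (Mark.free m) (fun p => {x | C p x.toWord}) := by
  have h : REPred fun x : π × W m => C x.1 (FreeGroup.reduce x.2) :=
    re_comp hC (Computable.fst.pair (primrec_reduce.to_comp.comp Computable.snd))
  refine h.of_eq fun x => ?_
  show _ ↔ C x.1 ((Mark.free m).ev x.2).toWord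
  rw [Mark.free_ev, FreeGroup.toWord_mk]

/-- `p <+: f a` for a constant list `p`. -/
theorem primrecPred_prefix {α β : Type*} [Primcodable α] [Primcodable β] (p : List β)
    {f : α → List β} (hf : Primrec f) : PrimrecPred fun a => p <+: f a := by
  classical
  have h : PrimrecPred fun a => (f a).take p.length = p :=
    Primrec.eq.comp (Primrec.list_take.comp (Primrec.const p.length) hf) (Primrec.const p)
  exact h.of_eq fun a => by rw [List.prefix_iff_eq_take, eq_comm]

theorem primrecPred_forall_not_prefix {β : Type*} [Primcodable β] (L : List (List β)) :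
    PrimrecPred fun w : List β => ∀ p ∈ L, ¬ p <+: w := by
  induction L with
  | nil =>
    have h : PrimrecPred fun _ : List β => True := ⟨inferInstance, Primrec.const _⟩
    exact h.of_eq fun w => by simp
  | cons p L ih =>
    exact ((primrecPred_prefix p Primrec.id).not.and ih).of_eq fun w => by simp

theorem primrecPred_rep (c : Code (Fin m)) : PrimrecPred c.Rep := by
  have h1 : PrimrecPred fun w : W m => FreeGroup.reduce w = w := Primrec.eq.comp primrec_reduce Primrec.id
  have h2 : PrimrecPred fun w : W m => w = [] := Primrec.eq.comp Primrec.id (Primrec.const [])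
  exact (h1.and (h2.not.and (primrecPred_forall_not_prefix c.heads))).of_eq fun w => by
    unfold Code.Rep
    rw [FreeGroup.isReduced_iff_reduce_eq]

theorem range_blkHom_fg (c : Code (Fin m)) : c.blkHom.range.FG := by
  exact (Group.fg_iff_subgroup_fg _).1 inferInstance

/-- **`F ∖ U₀` is r.e.** -/
theorem reset_compl_range_blkHom (c : Code (Fin m)) :
    RESet (Mark.free m) (fun _ : π => ((c.blkHom.range : Set (FreeGroup (Fin m))))ᶜ) := by
  have h1 : RESet (Mark.free m) (fun _ : π => (c.blkHom.range : Set (FreeGroup (Fin m)))) :=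
    RESet.of_fg (range_blkHom_fg c)
  have h2 : RELang fun (_ : π) (w : W m) => c.Rep w :=
    re_comp (re_of_primrecPred (primrecPred_rep c)) Computable.snd
  refine (h1.mul (RESet.of_lang (μ := Mark.free m) h2)).of_eq fun _ => ?_
  ext x
  constructor
  · intro hx
    obtain ⟨_, ⟨ν, rfl⟩, _, ⟨w, hw, rfl⟩, rfl⟩ := Set.mem_mul.1 hx
    rw [Mark.free_ev]
    exact c.mul_rep_not_mem ν hw
  · intro hx
    obtain ⟨ν, w, hw, rfl⟩ := c.exists_rep x hx
    exact Set.mem_mul.2 ⟨_, ⟨ν, rfl⟩, _, ⟨w, hw, Mark.free_ev w⟩, rfl⟩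

/-- the reduced word does not begin with a letter of `J` -/
def NoHead (J : Set (Fin m)) : Set (FreeGroup (Fin m)) := {x | ∀ a ∈ x.toWord.head?, a.1 ∉ J}

theorem reset_noHead (J : Set (Fin m)) : RESet (Mark.free m) (fun _ : π => NoHead J) := by
  classical
  have h : PrimrecPred fun w : W m => ∀ a ∈ w.head?, a.1 ∉ J := by
    have h0 : Primrec fun o : Option (Fin m × Bool) => decide (∀ a ∈ o, a.1 ∉ J) :=
      Primrec.dom_finite _
    exact ⟨inferInstance, h0.comp Primrec.list_head?⟩
  have h' : RELang fun (_ : π) (w : W m) => ∀ a ∈ w.head?, a.1 ∉ J :=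
    re_comp (re_of_primrecPred h) Computable.snd
  exact RESet.of_toWord h'

/-- **`F ∖ F(J) U₀` is r.e.** (`J` disjoint from the letters of the code). -/
theorem reset_compl_mul_range_blkHom (c : Code (Fin m)) (J : Set (Fin m)) (ha : c.la ∉ J)
    (hf : c.lf ∉ J) (ho : ∀ j, c.o j ∉ J) :
    RESet (Mark.free m) (fun _ : π =>
      ((Subgroup.closure (FreeGroup.of '' J) : Set (FreeGroup (Fin m))) * (c.blkHom.range : Set _))ᶜ) := by
  have h1 : RESet (Mark.free m)
      (fun _ : π => (Subgroup.closure (FreeGroup.of '' J) : Set (FreeGroup (Fin m)))) :=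
    RESet.closure (RESet.finite ((Set.toFinite J).image _))
  refine (h1.mul ((reset_compl_range_blkHom c).inter (reset_noHead J))).of_eq fun _ => ?_
  have hU : ∀ ν : FreeGroup c.UL, ∀ y ∈ (c.blkHom ν).toWord, y.1 ∈ Jᶜ := by
    intro ν y hy
    rcases c.letters_blkHom ν y hy with h | h | ⟨j, h⟩
    · rw [h]; exact ha
    · rw [h]; exact hf
    · rw [← h]; exact ho j
  ext x
  constructor
  · intro hx hx'
    obtain ⟨ρ, hρ, ψ, ⟨hψ, hψ'⟩, rfl⟩ := Set.mem_mul.1 hx
    obtain ⟨ρ', hρ', _, ⟨ν, rfl⟩, e⟩ := Set.mem_mul.1 hx'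
    have e' : ψ = (ρ⁻¹ * ρ') * c.blkHom ν := by rw [mul_assoc, e]; group
    have hρ'' : ρ⁻¹ * ρ' ∈ Subgroup.closure (FreeGroup.of '' J) :=
      Subgroup.mul_mem _ (Subgroup.inv_mem _ hρ) hρ'
    have hw := freeGroup_toWord_mul_of_disjoint J Jᶜ disjoint_compl_right (ρ⁻¹ * ρ') (c.blkHom ν)
      ((freeGroup_mem_closure_of_image_iff _ _).1 hρ'') (hU ν)
    rw [← e'] at hw
    cases hh : (ρ⁻¹ * ρ').toWord with
    | nil =>
      rw [FreeGroup.toWord_eq_nil_iff] at hh
      rw [hh, one_mul] at e'
      exact hψ ⟨ν, e'.symm⟩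
    | cons a t =>
      have h3 : a ∈ ψ.toWord.head? := by rw [hw, hh]; simp
      exact hψ' a h3 ((freeGroup_mem_closure_of_image_iff _ _).1 hρ'' a (by rw [hh]; simp))
  · intro hx
    -- strip the maximal `J`-prefix: induction on the length of the reduced word
    suffices H : ∀ (n : ℕ) (x : FreeGroup (Fin m)), x.toWord.length ≤ n →
        x ∉ (Subgroup.closure (FreeGroup.of '' J) : Set (FreeGroup (Fin m))) * (c.blkHom.range : Set _) →
        x ∈ (Subgroup.closure (FreeGroup.of '' J) : Set (FreeGroup (Fin m))) *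
          (((c.blkHom.range : Set _))ᶜ ∩ NoHead J) from H _ x le_rfl hx
    intro n
    induction n with
    | zero =>
      intro x hn hx
      have h1 : x = 1 := FreeGroup.toWord_eq_nil_iff.1 (List.length_eq_zero_iff.1 (Nat.le_zero.1 hn))
      exact absurd (Set.mem_mul.2 ⟨1, Subgroup.one_mem _, 1, Subgroup.one_mem _, by rw [h1, mul_one]⟩) hx
    | succ n ih =>
      intro x hn hx
      by_cases hh : x ∈ NoHead J
      · refine Set.mem_mul.2 ⟨1, Subgroup.one_mem _, x, ⟨?_, hh⟩, one_mul x⟩
        intro hxU
        exact hx (Set.mem_mul.2 ⟨1, Subgroup.one_mem _, x, hxU, one_mul x⟩)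
      · unfold NoHead at hh
        simp only [Set.mem_ofPred_eq, not_forall, not_not] at hh
        obtain ⟨a, ha', haJ⟩ := hh
        cases hw : x.toWord with
        | nil => rw [hw] at ha'; simp at ha'
        | cons b t =>
          rw [hw] at ha'
          simp only [List.head?_cons, Option.mem_def, Option.some.injEq] at ha'
          subst ha'
          have hred : FreeGroup.IsReduced t :=
            (FreeGroup.isReduced_toWord (x := x)).infix ⟨[b], [], by rw [List.append_nil, hw]; rfl⟩
          have hx1 : x = FreeGroup.mk [b] * FreeGroup.mk t := by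
            rw [FreeGroup.mul_mk, List.singleton_append, ← hw, FreeGroup.mk_toWord]
          have hb : FreeGroup.mk [b] ∈ Subgroup.closure (FreeGroup.of '' J) := by
            rw [freeGroup_mem_closure_of_image_iff]
            intro p hp
            have hr : FreeGroup.IsReduced [b] := by simp [FreeGroup.IsReduced]
            rw [FreeGroup.toWord_mk, hr.reduce_eq, List.mem_singleton] at hp
            rw [hp]; exact haJ
          have ht : (FreeGroup.mk t).toWord = t := by rw [FreeGroup.toWord_mk, hred.reduce_eq]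
          obtain ⟨ρ, hρ, ψ, hψ, e⟩ := Set.mem_mul.1 (ih (FreeGroup.mk t)
            (by rw [ht]; rw [hw] at hn; simpa using hn)
            (by
              intro h
              obtain ⟨ρ, hρ, υ, hυ, e⟩ := Set.mem_mul.1 h
              exact hx (Set.mem_mul.2 ⟨FreeGroup.mk [b] * ρ, Subgroup.mul_mem _ hb hρ, υ, hυ, by
                rw [mul_assoc, e, ← hx1]⟩)))
          exact Set.mem_mul.2 ⟨FreeGroup.mk [b] * ρ, Subgroup.mul_mem _ hb hρ, ψ, hψ, by
            rw [mul_assoc, e, ← hx1]⟩

end Claimed.Agent.R152.EV
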