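/-
Row 152, module EV, part (VI) continued (helper145): TRANSPORT OF THE FREE GROUP PART TO `K0` ALONG THE RETRACTION `ret : K0 → F(letters)`.
For ANY marking `μ` of `K0` by a finite alphabet and GIVEN that `K0 ∖ 1` is an `RESet`, the complements of
`Chat`, `R`, `U D N`, `R · U D N` and of `sig (S)` for every co-r.e. `S ⊆ F` are `RESet`s:  `g ∈ sig S ↔ g = sig (ret g) ∧ ret g ∈ S`.
-/
import Claimed.Agent.R152.EV.Free
import Claimed.Agent.R152.HW.Hs

set_option autoImplicit false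

namespace Claimed.Agent.R152.EV

open Claimed.Agent.R152.RE Claimed.Agent.R152.A Claimed.Agent.R152.HW Claimed.Agent.R152.H
open scoped Pointwise

variable {π : Type*} [Primcodable π] {α : Type*} [Primcodable α] [Finite α]
variable {𝔐 : Aff} {μ : Mark α 𝔐.K0}

/-- `{g | g ≠ f g}` for an endomorphism `f`. -/
theorem reset_ne_endo {M : Type*} [Group M] {μ : Mark α M}
    (h1 : RESet μ (fun _ : π => {g : M | g ≠ 1})) (f : M →* M) :
    RESet μ (fun _ : π => {g : M | g ≠ f g}) := by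
  have hw : IsWordMap μ (fun (_ : π) g => g * (f g)⁻¹) := IsWordMap.id.mul (IsWordMap.hom f).inv
  refine (h1.preimage hw).of_eq fun _ => ?_
  ext g
  simp [mul_inv_eq_one]

/-- The complement of `s '' S` for a section `s` of a retraction `r` onto a marked group, `S` co-r.e. -/
theorem reset_compl_section {M F : Type*} [Group M] [Group F] {β : Type*} [Primcodable β]
    {μ : Mark α M} {μF : Mark β F} (h1 : RESet μ (fun _ : π => {g : M | g ≠ 1}))
    (s : F →* M) (r : M →* F) (hrs : ∀ x, r (s x) = x) {S : π → Set F}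
    (hS : RESet μF (fun p => (S p)ᶜ)) : RESet μ (fun p => (s '' S p)ᶜ) := by
  refine ((reset_ne_endo h1 (s.comp r)).union (RESet.comap (μ := μ) r hS)).of_eq fun p => ?_
  ext g
  simp only [Set.mem_union, Set.mem_ofPred_eq, MonoidHom.comp_apply, Set.mem_preimage,
    Set.mem_compl_iff, Set.mem_image, not_exists, not_and]
  constructor
  · rintro (h | h) x hx rfl
    · exact h (by rw [hrs])
    · exact h (by rwa [hrs])
  · intro h
    by_cases hg : g = s (r g)
    · exact Or.inr fun hr => h _ hr hg.symm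
    · exact Or.inl hg

variable (I : Inp 𝔐)

/-- `K0 ∖ Chat`. -/
theorem reset_compl_Chat (h1 : RESet μ (fun _ : π => {g : 𝔐.K0 | g ≠ 1})) :
    RESet μ (fun _ : π => ((𝔐.Chat : Set 𝔐.K0))ᶜ) := by
  refine (reset_ne_endo h1 (Aff.sigC.comp Aff.ret)).of_eq fun _ => ?_
  ext g
  simp only [Set.mem_ofPred_eq, MonoidHom.comp_apply, Set.mem_compl_iff, SetLike.mem_coe]
  constructor
  · intro h hg
    exact h (Aff.sigC_ret_of_mem hg).symm
  · intro h hg
    apply h
    rw [hg, ← Aff.range_sigC]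
    exact ⟨_, rfl⟩

theorem coe_R_eq : (I.R : Set 𝔐.K0) =
    Aff.sig '' (Subgroup.closure (FreeGroup.of '' I.JM) : Set (FreeGroup (Fin 𝔐.nL))) := by
  ext g
  simp only [SetLike.mem_coe, I.mem_R_iff, Set.mem_image, freeGroup_mem_closure_of_image_iff]
  constructor
  · rintro ⟨φ, h, rfl⟩; exact ⟨φ, h, rfl⟩
  · rintro ⟨φ, h, rfl⟩; exact ⟨φ, h, rfl⟩

theorem coe_U_eq (D N : ℕ) : (I.U D N : Set 𝔐.K0) =
    Aff.sig '' ((I.code D N).blkHom.range : Set (FreeGroup (Fin 𝔐.nL))) := by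
  ext g
  simp only [SetLike.mem_coe, I.mem_U_iff, Set.mem_image, MonoidHom.mem_range]
  constructor
  · rintro ⟨ν, rfl⟩; exact ⟨_, ⟨ν, rfl⟩, rfl⟩
  · rintro ⟨_, ⟨ν, rfl⟩, rfl⟩; exact ⟨ν, rfl⟩

/-- the reduced word has a letter outside `J` -/
theorem reset_compl_closure_of (m : ℕ) (J : Set (Fin m)) : RESet (Mark.free m)
    (fun _ : π => ((Subgroup.closure (FreeGroup.of '' J) : Set (FreeGroup (Fin m))))ᶜ) := by
  classical
  have h : PrimrecPred fun w : W m => ∃ a ∈ w, a.1 ∉ J := by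
    have h0 : PrimrecPred fun a : Fin m × Bool => a.1 ∉ J := ⟨inferInstance, Primrec.dom_finite _⟩
    exact PrimrecPred.exists_mem_list h0
  have h' : RELang fun (_ : π) (w : W m) => ∃ a ∈ w, a.1 ∉ J :=
    re_comp (re_of_primrecPred h) Computable.snd
  refine (RESet.of_toWord h').of_eq fun _ => ?_
  ext x
  simp only [Set.mem_ofPred_eq, Set.mem_compl_iff, SetLike.mem_coe,
    freeGroup_mem_closure_of_image_iff, not_forall, exists_prop]

/-- `K0 ∖ R`. -/
theorem reset_compl_R (h1 : RESet μ (fun _ : π => {g : 𝔐.K0 | g ≠ 1})) :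
    RESet μ (fun _ : π => ((I.R : Set 𝔐.K0))ᶜ) := by
  rw [coe_R_eq]
  exact reset_compl_section h1 Aff.sig Aff.ret Aff.ret_sig (reset_compl_closure_of _ _)

/-- `K0 ∖ U`. -/
theorem reset_compl_U (h1 : RESet μ (fun _ : π => {g : 𝔐.K0 | g ≠ 1})) (D N : ℕ) :
    RESet μ (fun _ : π => ((I.U D N : Set 𝔐.K0))ᶜ) := by
  rw [coe_U_eq]
  exact reset_compl_section h1 Aff.sig Aff.ret Aff.ret_sig (reset_compl_range_blkHom _)

/-- `K0 ∖ R U`. -/
theorem reset_compl_RU (h1 : RESet μ (fun _ : π => {g : 𝔐.K0 | g ≠ 1})) (D N : ℕ) :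
    RESet μ (fun _ : π => ((I.R : Set 𝔐.K0) * (I.U D N : Set 𝔐.K0))ᶜ) := by
  rw [coe_R_eq, coe_U_eq, ← Set.image_mul]
  exact reset_compl_section h1 Aff.sig Aff.ret Aff.ret_sig
    (reset_compl_mul_range_blkHom (I.code D N) I.JM I.la_notMem I.lf_notMem I.o_notMem)

end Claimed.Agent.R152.EV
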