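/-
Row 152, module EV, step (V), generic part (helper145).  SUBGROUPS `SubPt V ξ = ⟨V, tt ξ⟩ = F(V ξ) ⋊ V` OF `Semi H C`.
* `re_X'`            : `H ∖ C` is r.e. as soon as `Semi H C ∖ 1` is  (`h ∈ C ↔ [h,t] = 1`);
* `DecPts.of_subPt`  : the orbit `V ξ` is a decidable set of points as soon as `SubPt V ξ` and its complement are r.e. (`q ∈ V ξ ↔ tt q ∈ SubPt V ξ`);
* `DecPts.of_le`     : passage to a subgroup `U ≤ U'` when the stabiliser of `ξ` in `U'` lies in `U`;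
* `re_subPt_compl`, `re_subPt_mul_compl` : complements of `SubPt V ξ` and of the PRODUCT `SubPt R ζ * SubPt U ξ = F(Rζ) Sg(∅, RU) F(Uξ)`.
-/
import Claimed.Agent.R152.EV.SemiRE

set_option autoImplicit false

namespace Claimed.Agent.R152.EV

open Claimed.Agent.R152.H SemidirectProduct
open scoped Pointwise

namespace SemiEv

variable {α π : Type*} [Primcodable α] [Finite α] [Primcodable π]
variable {H : Type*} [Group H] {C : Subgroup H} {μ : Mark α (Semi H C)}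

omit [Finite α] in
theorem isWordMap_conj_t : IsWordMap μ (fun (_ : π) (x : Semi H C) => x * Semi.t * x⁻¹) :=
  (IsWordMap.id.mul (IsWordMap.const Semi.t)).mul IsWordMap.id.inv

/-- `H ∖ C` is r.e. -/
theorem re_X' (h1 : RESet μ (fun _ : π => {y : Semi H C | y ≠ 1})) :
    RESet μ (fun _ : π => (inr '' {h : H | h ∉ C} : Set (Semi H C))) := by
  have hw : IsWordMap μ (fun (_ : π) (x : Semi H C) => x * Semi.t * x⁻¹ * Semi.t⁻¹) :=
    isWordMap_conj_t.mul (IsWordMap.const _)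
  refine (re_X.inter (h1.preimage hw)).of_eq fun _ => ?_
  ext y
  constructor
  · rintro ⟨⟨h, rfl⟩, hy⟩
    refine ⟨h, fun hC => hy ?_, rfl⟩
    show inr h * Semi.t * (inr h)⁻¹ * Semi.t⁻¹ = 1
    rw [Semi.inr_commute_t hC]
    group
  · rintro ⟨h, hh, rfl⟩
    refine ⟨⟨h, rfl⟩, fun e => hh ((Semi.inr_commute_t_iff h).1 ?_)⟩
    have e' : inr h * Semi.t * (inr h)⁻¹ * (Semi.t : Semi H C)⁻¹ = 1 := e
    calc (inr h : Semi H C) * Semi.t
        = (inr h * Semi.t * (inr h)⁻¹ * Semi.t⁻¹) * (Semi.t * inr h) := by group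
      _ = Semi.t * inr h := by rw [e', one_mul]

variable [DecidableEq (H ⧸ C)]

theorem tt_mem_subPt_iff (V : Subgroup H) (ξ q : H ⧸ C) :
    (Semi.tt q : Semi H C) ∈ Semi.SubPt V ξ ↔ q ∈ Semi.orbPt V ξ := by
  rw [Semi.mem_subPt_iff']
  have h1 : (Semi.tt q : Semi H C).right = 1 := rfl
  have h2 : (Semi.tt q : Semi H C).left.toWord = [(q, true)] := by
    show (FreeGroup.of q).toWord = _
    exact FreeGroup.toWord_of q
  rw [h1, h2]
  simp [V.one_mem]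

theorem XP_orbPt_eq (V : Subgroup H) (ξ : H ⧸ C) :
    XP (Semi.orbPt V ξ) = Set.range (inr : H → Semi H C) ∩
      (fun x : Semi H C => x * Semi.t * x⁻¹) ⁻¹' (Semi.SubPt V ξ : Set (Semi H C)) := by
  ext y
  constructor
  · rintro ⟨h, hh, rfl⟩
    refine ⟨⟨h, rfl⟩, ?_⟩
    show inr h * Semi.t * (inr h)⁻¹ ∈ Semi.SubPt V ξ
    rw [← Semi.tt_mk, tt_mem_subPt_iff]
    exact hh
  · rintro ⟨⟨h, rfl⟩, hy⟩
    refine ⟨h, ?_, rfl⟩
    have hy' : inr h * Semi.t * (inr h)⁻¹ ∈ Semi.SubPt V ξ := hy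
    rw [← Semi.tt_mk, tt_mem_subPt_iff] at hy'
    exact hy'

theorem XP_orbPt_compl_eq (V : Subgroup H) (ξ : H ⧸ C) :
    XP (Semi.orbPt V ξ)ᶜ = Set.range (inr : H → Semi H C) ∩
      (fun x : Semi H C => x * Semi.t * x⁻¹) ⁻¹' (Semi.SubPt V ξ : Set (Semi H C))ᶜ := by
  ext y
  constructor
  · rintro ⟨h, hh, rfl⟩
    refine ⟨⟨h, rfl⟩, ?_⟩
    show inr h * Semi.t * (inr h)⁻¹ ∉ Semi.SubPt V ξ
    rw [← Semi.tt_mk, tt_mem_subPt_iff]
    exact hh
  · rintro ⟨⟨h, rfl⟩, hy⟩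
    refine ⟨h, ?_, rfl⟩
    have hy' : inr h * Semi.t * (inr h)⁻¹ ∉ Semi.SubPt V ξ := hy
    rw [← Semi.tt_mk, tt_mem_subPt_iff] at hy'
    exact hy'

/-- The orbit `V ξ` is decidable if `SubPt V ξ` is. -/
theorem DecPts.of_subPt {V : π → Subgroup H} {ξ : π → H ⧸ C}
    (hp : RESet μ (fun p => (Semi.SubPt (V p) (ξ p) : Set (Semi H C))))
    (hn : RESet μ (fun p => (Semi.SubPt (V p) (ξ p) : Set (Semi H C))ᶜ)) :
    DecPts μ (fun p => Semi.orbPt (V p) (ξ p)) :=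
  ⟨(re_X.inter (hp.preimage isWordMap_conj_t)).of_eq fun p => (XP_orbPt_eq _ _).symm,
    (re_X.inter (hn.preimage isWordMap_conj_t)).of_eq fun p => (XP_orbPt_compl_eq _ _).symm⟩

omit [DecidableEq (H ⧸ C)] in
/-- Points outside `U ξ`, for `U ≤ U'` such that the stabiliser of `ξ = g C` in `U'` lies in `U`. -/
theorem XP_orbPt_compl_of_le {U U' : Subgroup H} (hle : U ≤ U') (g : H)
    (hst : ∀ u ∈ U', u • (g : H ⧸ C) = (g : H ⧸ C) → u ∈ U) :
    XP (Semi.orbPt U (g : H ⧸ C))ᶜ = XP (Semi.orbPt U' (g : H ⧸ C))ᶜ ∪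
      ((inr '' (U' : Set H) ∩ inr '' (U : Set H)ᶜ) * {inr g} * inr '' (C : Set H) :
        Set (Semi H C)) := by
  ext y
  constructor
  · rintro ⟨h, hh, rfl⟩
    by_cases h' : (h : H ⧸ C) ∈ Semi.orbPt U' (g : H ⧸ C)
    · right
      obtain ⟨u, hu, e⟩ := h'
      have huU : u ∉ U := fun hu' => hh ⟨u, hu', e⟩
      have e' : (h : H ⧸ C) = ((u * g : H) : H ⧸ C) := e
      rw [QuotientGroup.eq] at e'
      refine Set.mem_mul.2 ⟨inr u * inr g, Set.mem_mul.2 ⟨inr u, ⟨⟨u, hu, rfl⟩, ⟨u, huU, rfl⟩⟩,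
        inr g, rfl, rfl⟩, inr ((u * g)⁻¹ * h), ⟨_, ?_, rfl⟩, ?_⟩
      · have := C.inv_mem e'
        simpa [mul_assoc] using this
      · rw [← map_mul, ← map_mul]
        congr 1
        group
    · left
      exact ⟨h, h', rfl⟩
  · rintro (⟨h, hh, rfl⟩ | hy)
    · refine ⟨h, fun ⟨u, hu, e⟩ => hh ⟨u, hle hu, e⟩, rfl⟩
    · obtain ⟨_, h1, _, ⟨c, hc, rfl⟩, rfl⟩ := Set.mem_mul.1 hy
      obtain ⟨_, ⟨⟨u, hu, rfl⟩, ⟨u', hu', e⟩⟩, _, rfl, rfl⟩ := Set.mem_mul.1 h1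
      have : u' = u := inr_injective e
      subst this
      refine ⟨u' * g * c, ?_, by rw [map_mul, map_mul]⟩
      rintro ⟨v, hv, e⟩
      apply hu'
      have e1 : ((u' * g * c : H) : H ⧸ C) = ((u' * g : H) : H ⧸ C) := by
        rw [QuotientGroup.eq]
        have : (u' * g * c)⁻¹ * (u' * g) = c⁻¹ := by group
        rw [this]
        exact C.inv_mem hc
      have e2 : u' • (g : H ⧸ C) = v • (g : H ⧸ C) := by
        have : ((u' * g : H) : H ⧸ C) = v • (g : H ⧸ C) := e1.symm.trans e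
        exact this
      have e3 : (v⁻¹ * u') • (g : H ⧸ C) = (g : H ⧸ C) := by
        rw [mul_smul, e2, inv_smul_smul]
      have := U.mul_mem hv (hst _ (U'.mul_mem (U'.inv_mem (hle hv)) hu) e3)
      simpa using this

omit [DecidableEq (H ⧸ C)] in
/-- Passage to a subgroup. -/
theorem DecPts.of_le {U U' : π → Subgroup H} (hle : ∀ p, U p ≤ U' p) {g : π → H}
    (hst : ∀ p, ∀ u ∈ U' p, u • (g p : H ⧸ C) = (g p : H ⧸ C) → u ∈ U p)
    (hpos : RESet μ (fun p => XP (Semi.orbPt (U p) (g p : H ⧸ C))))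
    (hneg' : RESet μ (fun p => XP (Semi.orbPt (U' p) (g p : H ⧸ C))ᶜ))
    (hU' : RESet μ (fun p => (inr '' (U' p : Set H) : Set (Semi H C))))
    (hUc : RESet μ (fun p => (inr '' (U p : Set H)ᶜ : Set (Semi H C))))
    (hg : RESet μ (fun p => ({inr (g p)} : Set (Semi H C))))
    (hC : RESet μ (fun _ : π => (inr '' (C : Set H) : Set (Semi H C)))) :
    DecPts μ (fun p => Semi.orbPt (U p) (g p : H ⧸ C)) :=
  ⟨hpos, (hneg'.union (((hU'.inter hUc).mul hg).mul hC)).of_eq fun p =>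
    (XP_orbPt_compl_of_le (hle p) (g p) (hst p)).symm⟩

theorem coe_subPt_eq_Sg (V : Subgroup H) (ξ : H ⧸ C) :
    (Semi.SubPt V ξ : Set (Semi H C)) = Sg (Semi.orbPt V ξ) (V : Set H) := by
  ext y
  exact Semi.mem_subPt_iff' V ξ y

/-- The complement of `SubPt V ξ`. -/
theorem re_subPt_compl (hX' : RESet μ (fun _ : π => (inr '' {h : H | h ∉ C} : Set (Semi H C))))
    {V : π → Subgroup H} {ξ : π → H ⧸ C} (hd : DecPts μ (fun p => Semi.orbPt (V p) (ξ p)))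
    (hQ : RESet μ (fun p => (inr '' (V p : Set H)ᶜ : Set (Semi H C)))) :
    RESet μ (fun p => (Semi.SubPt (V p) (ξ p) : Set (Semi H C))ᶜ) :=
  (re_Sg_compl hX' hd hQ).of_eq fun p => by rw [coe_subPt_eq_Sg]

theorem FFs_le_subPt (V : Subgroup H) (ξ : H ⧸ C) : FFs (Semi.orbPt V ξ) ≤ Semi.SubPt V ξ := by
  intro y hy
  obtain ⟨h1, h2⟩ := (mem_FFs_iff _ y).1 hy
  exact (Semi.mem_subPt_iff' V ξ y).2 ⟨h1 ▸ V.one_mem, h2⟩

/-- `⟨R, tt ζ⟩ ⟨U, tt ξ⟩ = F(Rζ) · RU · F(Uξ)`. -/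
theorem subPt_mul_subPt_eq (R U : Subgroup H) (ζ ξ : H ⧸ C) :
    (Semi.SubPt R ζ : Set (Semi H C)) * (Semi.SubPt U ξ : Set (Semi H C)) =
      (FFs (Semi.orbPt R ζ) : Set (Semi H C)) * Sg ∅ ((R : Set H) * (U : Set H)) *
        (FFs (Semi.orbPt U ξ) : Set (Semi H C)) := by
  ext y
  constructor
  · intro hy
    obtain ⟨k, hk, p, hp, rfl⟩ := Set.mem_mul.1 hy
    obtain ⟨hk1, hk2⟩ := (Semi.mem_subPt_iff' R ζ k).1 hk
    have hpi : (inr p.right)⁻¹ * p ∈ Semi.SubPt U ξ :=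
      Subgroup.mul_mem _ (Subgroup.inv_mem _
        (Semi.inr_mem_subPt ((Semi.mem_subPt_iff' U ξ p).1 hp).1)) hp
    refine Set.mem_mul.2 ⟨inl k.left * inr (k.right * p.right), Set.mem_mul.2
      ⟨inl k.left, (mem_FFs_iff _ _).2 ⟨rfl, hk2⟩, inr (k.right * p.right),
        ⟨Set.mul_mem_mul hk1 ((Semi.mem_subPt_iff' U ξ p).1 hp).1, ?_⟩, rfl⟩,
      (inr p.right)⁻¹ * p, (mem_FFs_iff _ _).2 ⟨?_, ((Semi.mem_subPt_iff' U ξ _).1 hpi).2⟩, ?_⟩
    · intro q hq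
      rw [left_inr, FreeGroup.toWord_one] at hq
      simp at hq
    · simp
    · rw [map_mul]
      conv_rhs => rw [← inl_left_mul_inr_right k]
      group
  · intro hy
    obtain ⟨_, h1, f', hf', rfl⟩ := Set.mem_mul.1 hy
    obtain ⟨f, hf, s, ⟨hs1, hs2⟩, rfl⟩ := Set.mem_mul.1 h1
    obtain ⟨r, hr, u, hu, e⟩ := Set.mem_mul.1 hs1
    have hs : s = inr r * inr u := by
      have h0 : s.left.toWord = [] := List.eq_nil_iff_forall_not_mem.2 fun q hq => hs2 q hq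
      obtain ⟨h, rfl⟩ := (toWord_eq_nil_iff s).1 h0
      rw [← map_mul, e]
      rfl
    refine Set.mem_mul.2 ⟨f * inr r, Subgroup.mul_mem _ (FFs_le_subPt R ζ hf)
      (Semi.inr_mem_subPt hr), inr u * f', Subgroup.mul_mem _ (Semi.inr_mem_subPt hu)
      (FFs_le_subPt U ξ hf'), ?_⟩
    rw [hs]
    group

/-- The complement of the product `SubPt R ζ * SubPt U ξ`. -/
theorem re_subPt_mul_compl
    (hX' : RESet μ (fun _ : π => (inr '' {h : H | h ∉ C} : Set (Semi H C))))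
    {R U : π → Subgroup H} {ζ ξ : π → H ⧸ C} (hR : DecPts μ (fun p => Semi.orbPt (R p) (ζ p)))
    (hU : DecPts μ (fun p => Semi.orbPt (U p) (ξ p)))
    (hQ : RESet μ (fun p => (inr '' ((R p : Set H) * (U p : Set H))ᶜ : Set (Semi H C)))) :
    RESet μ (fun p => ((Semi.SubPt (R p) (ζ p) : Set (Semi H C)) *
      (Semi.SubPt (U p) (ξ p) : Set (Semi H C)))ᶜ) :=
  (re_atom hX' hR DecPts.empty hU hQ).of_eq fun p => by rw [subPt_mul_subPt_eq]

end SemiEv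

end Claimed.Agent.R152.EV
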