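/-
Row 152, module EV, step (V) (helper145).  ASSEMBLY ON `Hs = Semi K0 Chat`.
INPUT (for any marking `μ` of `Hs` by a finite alphabet, any parameter type `π`, `ξ : π → Vec` start configurations):
  `h1  : Hs ∖ 1` r.e.,   `hK : Hs ∖ K` r.e.,   `hP' : Hs ∖ P' (ξ p)` r.e. (`P' = ⟨T ξ, ALL input letters⟩`),   `hsp : {inr (x (ξ p))}` r.e. (W3).
OUTPUT:  `re_P_compl : Hs ∖ P D N (ξ p)` r.e.,   `re_KP_compl : Hs ∖ K · P D N (ξ p)` r.e.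
-/
import Claimed.Agent.R152.EV.SemiOrb
import Claimed.Agent.R152.EV.FreeK0
import Claimed.Agent.R152.HW.Hac

set_option autoImplicit false

namespace Claimed.Agent.R152.EV

open Claimed.Agent.R152.RE Claimed.Agent.R152.HW Claimed.Agent.R152.H SemidirectProduct
open scoped Pointwise

namespace HsV

variable {α π : Type*} [Primcodable α] [Finite α] [Primcodable π]
variable {𝔐 : Aff} (I : Inp 𝔐) {μ : Mark α 𝔐.Hs}

/-- `inr '' (sig '' S)ᶜ` is r.e. if `Sᶜ` is r.e. in the free group. -/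
theorem re_inr_compl_sig (h1 : RESet μ (fun _ : π => {h : 𝔐.Hs | h ≠ 1}))
    {S : π → Set (FreeGroup (Fin 𝔐.nL))} (hS : RESet (Mark.free 𝔐.nL) (fun p => (S p)ᶜ)) :
    RESet μ (fun p => (inr '' (Aff.sig '' S p : Set 𝔐.K0)ᶜ : Set 𝔐.Hs)) := by
  have h := reset_compl_section h1 ((inr : 𝔐.K0 →* 𝔐.Hs).comp Aff.sig)
    (Aff.ret.comp (rightHom : 𝔐.Hs →* 𝔐.K0)) (fun x => by simp) hS
  refine (SemiEv.re_X.inter h).of_eq fun p => ?_
  ext y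
  constructor
  · rintro ⟨⟨g, rfl⟩, hy⟩
    refine ⟨g, fun ⟨φ, hφ, e⟩ => hy ⟨φ, hφ, ?_⟩, rfl⟩
    show inr (Aff.sig φ) = _
    rw [e]
  · rintro ⟨g, hg, rfl⟩
    refine ⟨⟨g, rfl⟩, ?_⟩
    rintro ⟨φ, hφ, e⟩
    exact hg ⟨φ, hφ, inr_injective e⟩

theorem re_inr_compl_R (h1 : RESet μ (fun _ : π => {h : 𝔐.Hs | h ≠ 1})) :
    RESet μ (fun _ : π => (inr '' (I.R : Set 𝔐.K0)ᶜ : Set 𝔐.Hs)) := by
  rw [coe_R_eq]
  exact re_inr_compl_sig h1 (reset_compl_closure_of _ _)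

theorem re_inr_compl_U (h1 : RESet μ (fun _ : π => {h : 𝔐.Hs | h ≠ 1})) (D N : ℕ) :
    RESet μ (fun _ : π => (inr '' (I.U D N : Set 𝔐.K0)ᶜ : Set 𝔐.Hs)) := by
  rw [coe_U_eq]
  exact re_inr_compl_sig h1 (reset_compl_range_blkHom _)

theorem re_inr_compl_RU (h1 : RESet μ (fun _ : π => {h : 𝔐.Hs | h ≠ 1})) (D N : ℕ) :
    RESet μ (fun _ : π => (inr '' ((I.R : Set 𝔐.K0) * (I.U D N : Set 𝔐.K0))ᶜ : Set 𝔐.Hs)) := by
  rw [coe_R_eq, coe_U_eq, ← Set.image_mul]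
  exact re_inr_compl_sig h1
    (reset_compl_mul_range_blkHom (I.code D N) I.JM I.la_notMem I.lf_notMem I.o_notMem)

omit [Finite α] in
/-- `inr '' V` for a finitely generated `V ≤ K0`. -/
theorem re_inr_fg {V : Subgroup 𝔐.K0} (hV : V.FG) :
    RESet μ (fun _ : π => (inr '' (V : Set 𝔐.K0) : Set 𝔐.Hs)) := by
  obtain ⟨T, hT, hfin⟩ := (Subgroup.fg_iff V).1 hV
  have h : (V.map (inr : 𝔐.K0 →* 𝔐.Hs)).FG :=
    (Subgroup.fg_iff _).2 ⟨inr '' T, by rw [← MonoidHom.map_closure, hT], hfin.image _⟩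
  exact (RESet.of_fg (μ := μ) (π := π) h).of_eq fun _ => rfl

/-- The points `R • cf z` are decidable. -/
theorem decPts_R (hK : RESet μ (fun _ : π => (I.K : Set 𝔐.Hs)ᶜ)) :
    SemiEv.DecPts μ (fun _ : π => Semi.orbPt I.R (Aff.cf I.z)) := by
  classical
  exact SemiEv.DecPts.of_subPt (V := fun _ => I.R) (ξ := fun _ => Aff.cf I.z)
    (RESet.of_fg I.K_fg) hK

omit [Finite α] in
/-- `{T (ξ p)}` is r.e. -/
theorem re_T {ξ : π → 𝔐.Vec} (hsp : RESet μ (fun p => ({inr (Aff.x (ξ p))} : Set 𝔐.Hs))) :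
    RESet μ (fun p => ({Inp.T (ξ p)} : Set 𝔐.Hs)) :=
  (hsp.image SemiEv.isWordMap_conj_t).of_eq fun p => by
    rw [Set.image_singleton, Aff.hac_T_eq]

omit [Finite α] in
/-- `P D N (ξ p)` is r.e. -/
theorem re_P {ξ : π → 𝔐.Vec} (hsp : RESet μ (fun p => ({inr (Aff.x (ξ p))} : Set 𝔐.Hs)))
    (D N : ℕ) : RESet μ (fun p => (I.P D N (ξ p) : Set 𝔐.Hs)) :=
  (RESet.closure ((re_T hsp).union (RESet.finite (Set.finite_range
    (fun y => I.uel D N (FreeGroup.of y)))))).of_eq fun p => by rw [I.P_eq_closure]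

theorem U_le (D N : ℕ) : I.U D N ≤ Subgroup.closure (Aff.lam '' I.Jin) := by
  intro g hg
  obtain ⟨ν, rfl⟩ := (I.mem_U_iff D N g).1 hg
  exact (Inp.hac_mem_closure_lam_iff I.Jin _).2 ⟨_, I.letters_U D N ν, rfl⟩

/-- The points `U • cf (ξ p)` are decidable. -/
theorem decPts_U (h1 : RESet μ (fun _ : π => {h : 𝔐.Hs | h ≠ 1})) {ξ : π → 𝔐.Vec}
    (hξ : ∀ p, I.Start (ξ p)) (hP' : RESet μ (fun p => (I.P' (ξ p) : Set 𝔐.Hs)ᶜ))
    (hsp : RESet μ (fun p => ({inr (Aff.x (ξ p))} : Set 𝔐.Hs))) (D N : ℕ) :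
    SemiEv.DecPts μ (fun p => Semi.orbPt (I.U D N) (Aff.cf (ξ p))) := by
  classical
  refine SemiEv.DecPts.of_le (U := fun _ => I.U D N)
    (U' := fun _ => Subgroup.closure (Aff.lam '' I.Jin)) (fun _ => U_le I D N)
    (g := fun p => Aff.x (ξ p)) ?_ ?_ ?_ ?_ (re_inr_compl_U I h1 D N) hsp
    (re_inr_fg Aff.Chat_fg)
  · intro p u hu e
    obtain ⟨φ, hφ, rfl⟩ := (Inp.hac_mem_closure_lam_iff I.Jin u).1 hu
    rw [I.eq_one_of_smul_eq (hξ p) φ hφ e, map_one]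
    exact Subgroup.one_mem _
  · exact (SemiEv.re_X.inter ((re_P I hsp D N).preimage SemiEv.isWordMap_conj_t)).of_eq
      fun p => (SemiEv.XP_orbPt_eq _ _).symm
  · exact (SemiEv.re_X.inter (hP'.preimage SemiEv.isWordMap_conj_t)).of_eq
      fun p => (SemiEv.XP_orbPt_compl_eq _ _).symm
  · exact re_inr_fg ((Subgroup.fg_iff _).2 ⟨_, rfl, (Set.toFinite I.Jin).image _⟩)

/-- **`Hs ∖ P` is r.e., uniformly in the parameter.** -/
theorem re_P_compl (h1 : RESet μ (fun _ : π => {h : 𝔐.Hs | h ≠ 1})) {ξ : π → 𝔐.Vec}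
    (hξ : ∀ p, I.Start (ξ p)) (hP' : RESet μ (fun p => (I.P' (ξ p) : Set 𝔐.Hs)ᶜ))
    (hsp : RESet μ (fun p => ({inr (Aff.x (ξ p))} : Set 𝔐.Hs))) (D N : ℕ) :
    RESet μ (fun p => (I.P D N (ξ p) : Set 𝔐.Hs)ᶜ) := by
  classical
  exact SemiEv.re_subPt_compl (SemiEv.re_X' h1) (V := fun _ => I.U D N)
    (decPts_U I h1 hξ hP' hsp D N) (re_inr_compl_U I h1 D N)

/-- **`Hs ∖ K P` is r.e., uniformly in the parameter.** -/
theorem re_KP_compl (h1 : RESet μ (fun _ : π => {h : 𝔐.Hs | h ≠ 1}))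
    (hK : RESet μ (fun _ : π => (I.K : Set 𝔐.Hs)ᶜ)) {ξ : π → 𝔐.Vec}
    (hξ : ∀ p, I.Start (ξ p)) (hP' : RESet μ (fun p => (I.P' (ξ p) : Set 𝔐.Hs)ᶜ))
    (hsp : RESet μ (fun p => ({inr (Aff.x (ξ p))} : Set 𝔐.Hs))) (D N : ℕ) :
    RESet μ (fun p => ((I.K : Set 𝔐.Hs) * (I.P D N (ξ p) : Set 𝔐.Hs))ᶜ) := by
  classical
  exact SemiEv.re_subPt_mul_compl (SemiEv.re_X' h1) (R := fun _ => I.R) (U := fun _ => I.U D N)
    (decPts_R I hK) (decPts_U I h1 hξ hP' hsp D N) (re_inr_compl_RU I h1 D N)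

end HsV

end Claimed.Agent.R152.EV
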