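/-
Row 152, module EV (helper531).  EXPORT: the four evidence sets of the hardware group are r.e., and `exists_good` for module IN.
-/
import Claimed.Agent.R152.EV.HacEv
import Claimed.Agent.R152.EV.HsV
import Claimed.Agent.R152.IN.Good
import Claimed.Agent.R152.MC.W

set_option autoImplicit false

noncomputable section

namespace Claimed.Agent.R152.EV

open Claimed.Agent.R152.H Claimed.Agent.R152.HW Claimed.Agent.R152.HW.Aff SemidirectProduct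
open scoped Pointwise

variable {𝔐 : Aff} (I : Inp 𝔐) {π : Type*} [Primcodable π]

/-- The singleton `{inr (x (ξ q))}` from a computable spelling. -/
theorem re_spell {ξ : π → 𝔐.Vec} {sp : π → List 𝔐.HLet} (hc : Computable sp)
    (hsp : ∀ q, (evalH (sp q) : 𝔐.Hs) = inr (x (ξ q))) :
    RESet (muS 𝔐) (fun q => ({inr (x (ξ q))} : Set 𝔐.Hs)) :=
  (RESet.singleton_word (μ := muS 𝔐) hc).of_eq (fun q => by rw [muS_ev, hsp])

/-- THE FOUR EVIDENCE SETS. -/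
theorem four_sets
    (W1 : ∃ meas : 𝔐.Vec → ℕ, ∀ l ∈ I.JM, ∀ α β, 𝔐.Step l α β → meas β < meas α)
    (W2 : ∃ meas : 𝔐.Vec → ℕ, ∀ l ∈ I.Jin, ∀ α β, 𝔐.Step l α β → meas α < meas β)
    {ξ : π → 𝔐.Vec} (hξ : ∀ q, I.Start (ξ q))
    (hsp : RESet (muS 𝔐) (fun q => ({inr (x (ξ q))} : Set 𝔐.Hs))) (D N : ℕ) :
    RESet (muS 𝔐) (fun _ : π => {h : 𝔐.Hs | h ≠ 1}) ∧
    RESet (muS 𝔐) (fun _ : π => (I.K : Set 𝔐.Hs)ᶜ) ∧
    RESet (muS 𝔐) (fun q => (I.P D N (ξ q) : Set 𝔐.Hs)ᶜ) ∧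
    RESet (muS 𝔐) (fun q => ((I.K : Set 𝔐.Hs) * (I.P D N (ξ q) : Set 𝔐.Hs))ᶜ) := by
  have h1 : RESet (muS 𝔐) (fun _ : π => {h : 𝔐.Hs | h ≠ 1}) := HacEv.re_ne_one_Hs
  have hK : RESet (muS 𝔐) (fun _ : π => (I.K : Set 𝔐.Hs)ᶜ) := HacEv.re_K_compl I W1
  have hP' : RESet (muS 𝔐) (fun q => (I.P' (ξ q) : Set 𝔐.Hs)ᶜ) :=
    HacEv.re_P'_compl I W2 hξ (Cfg.re_xb_of_x hsp)
  exact ⟨h1, hK, HsV.re_P_compl I h1 hξ hP' hsp D N, HsV.re_KP_compl I h1 hK hξ hP' hsp D N⟩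

/-- **THE INPUT OF MODULE IN.** -/
theorem exists_good : ∃ (𝔐 : Aff) (I : Inp 𝔐) (ξ : ℕ → 𝔐.Vec), IN.Good 𝔐 I ξ := by
  obtain ⟨𝔐, I, ξ, E, sp, -, -, hsp, hsp', w1, w2, hstart, -, hself⟩ := MC.hardware_W
  have hs : RESet (muS 𝔐) (fun q => ({inr (x (ξ q))} : Set 𝔐.Hs)) := re_spell hsp.to_comp hsp'
  have hs0 : RESet (muS 𝔐) (fun _ : Unit => ({inr (x (ξ 0))} : Set 𝔐.Hs)) := RESet.singleton _
  refine ⟨𝔐, I, ξ, IN.good_of_reset hstart hsp.to_comp hsp'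
    (four_sets I w1 w2 (ξ := fun _ : Unit => ξ 0) (fun _ => hstart 0) hs0 0 0).1
    (four_sets I w1 w2 (ξ := fun _ : Unit => ξ 0) (fun _ => hstart 0) hs0 0 0).2.1
    (fun D N => (four_sets I w1 w2 hstart hs D N).2.2.1)
    (fun D N => (four_sets I w1 w2 hstart hs D N).2.2.2) hself⟩

end Claimed.Agent.R152.EV
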