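/-
Row 152, module EV (helper531).  EVIDENCE IN A MULTIPLE HNN EXTENSION `𝔊 = MHNN G A B φ`:  SET IDENTITIES.
Sorts `s = (i,b) : ι × Bool` stand for the letter `tl s = t_i^{±1}` (`sg b = ±1`), `As s = toSubgroup (A i) (B i) (sg b)` (`= A i` for `b = true`, `B i` for `b = false`).
`Rd s` = products of reduced words `tl s * g₁ * tl s₂ * g₂ ⋯` (head `1`, first letter `s`) = least solution of the right-linear system
      `Rd s = tl s * G  ∪  ⋃ s', tl s * G^{s,s'} * Rd s'`,   `G^{s,s'} = G ∖ As s` if `s' = (i,!b)`, `= G` otherwise.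
(E1)  `𝔊 ∖ 1 = (G ∖ 1) ∪ ⋃ s, G * Rd s`.
(E2)  `𝔊 ∖ Sub S J = Sub S J * ((G ∖ S) ∪ ⋃ s, Hd s * Rd s)`,  `Hd s = G ∖ S * As (i,!b)` if `i ∈ J`, `= G` otherwise.
STATEMENTS ARE FROZEN. Proofs are in the docstrings.
-/
import Claimed.Agent.R152.H.MHNNSub
import Claimed.Agent.R152.EV.RL

set_option autoImplicit false

namespace Claimed.Agent.R152.EV

open Claimed.Agent.R152.H Claimed.Agent.R152.H.MHNN.NormalWord
open HNNExtension (toSubgroup toSubgroupEquiv)
open scoped Pointwise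

namespace MhnnEv

variable {G : Type*} [Group G] {ι : Type*} {A B : ι → Subgroup G} {φ : ∀ i, A i ≃* B i}

/-- The sign of a Boolean. -/
def sg (b : Bool) : ℤˣ := if b then 1 else -1

theorem sg_not (b : Bool) : sg (!b) = -sg b := by
  cases b <;> simp [sg]

theorem exists_sg (u : ℤˣ) : ∃ b, sg b = u := by
  rcases Int.units_eq_one_or u with rfl | rfl
  · exact ⟨true, rfl⟩
  · exact ⟨false, rfl⟩

theorem sg_injective : Function.Injective sg := by
  intro a b h
  cases a <;> cases b <;> simp_all [sg]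

variable (φ) in
/-- The letter `t_i^{±1}`. -/
def tl (s : ι × Bool) : MHNN G A B φ := MHNN.t s.1 ^ ((sg s.2 : ℤˣ) : ℤ)

variable (A B) in
/-- The associated subgroup: `tl s * c = ψ(c) * tl s` for `c ∈ As s`. -/
def As (s : ι × Bool) : Subgroup G := toSubgroup (A s.1) (B s.1) (sg s.2)

theorem As_true (i : ι) : As A B (i, true) = A i := rfl

theorem As_false (i : ι) : As A B (i, false) = B i := rfl

variable (φ) in
/-- Terminal sets. -/
def RdT (s : ι × Bool) : Set (MHNN G A B φ) := {x | ∃ g : G, x = tl φ s * MHNN.of g}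

variable (φ) in
/-- Edges. -/
def RdE (s s' : ι × Bool) : Set (MHNN G A B φ) :=
  {x | ∃ g : G, (s' = (s.1, !s.2) → g ∉ As A B s) ∧ x = tl φ s * MHNN.of g}

variable (φ) in
/-- Products of reduced words with head `1` and first letter `s`. -/
def Rd (s : ι × Bool) : Set (MHNN G A B φ) := {x | RL (RdT φ) (RdE φ) s x}

/-- `Rd s` = `tl s * w.prod`, `w` a reduced word to which `tl s` can be prepended.
`→`: induction on `RL`. `last`: `w = ofGroup g`. `step`: `x = tl s * of g * y`, `y = tl s' * w'.prod` with the condition `h'` for `(s', w')`: take `w = cons g s'.1 (sg s'.2) w' h'`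
(`prod_cons`); its head is `g`, its first letter `(s'.1, sg s'.2)`; the condition for `(s,w)`: if `g ∈ As s` and `s.1 = s'.1` then `s' ≠ (s.1, !s.2)`, so `s'.2 = s.2`.
`←`: induction on `w.toList.length` for all `s`, `w` (`cases_cons`): `w = ofGroup g`: `RL.last`. `w = cons g i u w' h'`, `u = sg b` (`exists_sg`): `RL.step` with `s' = (i,b)`; if `s' = (s.1,!s.2)` and
`g ∈ As s` the condition gives `sg s.2 = sg (!s.2)`, impossible (`sg_injective`). -/
theorem mhnnEv_mem_Rd_aux (n : ℕ) : ∀ (w : ReducedWord G A B) (s : ι × Bool), w.toList.length = n →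
    (∀ p ∈ Option.map Prod.fst w.toList.head?,
        w.head ∈ toSubgroup (A s.1) (B s.1) (sg s.2) → s.1 = p.1 → sg s.2 = p.2) →
    tl φ s * w.prod φ ∈ Rd φ s := by
  induction n with
  | zero =>
    intro w s hn _
    rcases MHNN.ReducedWord.cases_cons w with ⟨g, rfl⟩ | ⟨g, i, u, w', h', rfl⟩
    · exact RL.last ⟨g, by simp⟩
    · simp at hn
  | succ n ih =>
    intro w s hn hw
    rcases MHNN.ReducedWord.cases_cons w with ⟨g, rfl⟩ | ⟨g, i, u, w', h', rfl⟩
    · simp at hn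
    · obtain ⟨b, rfl⟩ := exists_sg u
      have hlen : w'.toList.length = n := by simpa using hn
      have h1 := ih w' (i, b) hlen h'
      have h2 : tl φ s * (MHNN.ReducedWord.cons g i (sg b) w' h').prod φ =
          (tl φ s * MHNN.of g) * (tl φ (i, b) * w'.prod φ) := by
        rw [MHNN.ReducedWord.prod_cons, tl, tl, mul_assoc]
      rw [h2]
      refine RL.step (s' := (i, b)) ⟨g, ?_, rfl⟩ h1
      intro hs hg
      have h3 := hw (i, sg b) (by simp) hg (by rw [Prod.ext_iff] at hs; exact hs.1.symm)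
      have h4 : s.2 = b := sg_injective h3
      rw [Prod.ext_iff] at hs
      have h5 : b = !s.2 := hs.2
      rw [h4] at h5
      cases b <;> simp at h5

theorem mem_Rd_iff (s : ι × Bool) (x : MHNN G A B φ) :
    x ∈ Rd φ s ↔ ∃ w : ReducedWord G A B,
      (∀ p ∈ Option.map Prod.fst w.toList.head?,
        w.head ∈ toSubgroup (A s.1) (B s.1) (sg s.2) → s.1 = p.1 → sg s.2 = p.2) ∧
      x = tl φ s * w.prod φ := by
  constructor
  · intro hx
    change RL (RdT φ) (RdE φ) s x at hx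
    induction hx with
    | @last s x h =>
      obtain ⟨g, rfl⟩ := h
      refine ⟨MHNN.ReducedWord.ofGroup g, ?_, by simp⟩
      intro p hp
      simp at hp
    | @step s s' e y he _ ih =>
      obtain ⟨g, hg, rfl⟩ := he
      obtain ⟨w', h', rfl⟩ := ih
      refine ⟨MHNN.ReducedWord.cons g s'.1 (sg s'.2) w' h', ?_, ?_⟩
      · intro p hp hmem hi
        simp only [MHNN.ReducedWord.cons_toList, List.head?_cons, Option.map_some,
          Option.mem_def, Option.some.injEq] at hp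
        subst hp
        simp only [MHNN.ReducedWord.cons_head] at hmem
        simp only at hi ⊢
        by_contra hne
        apply hg _ hmem
        have h2 : s'.2 = !s.2 := by
          rcases s with ⟨i, b⟩
          rcases s' with ⟨i', b'⟩
          cases b <;> cases b' <;> simp_all
        exact Prod.ext hi.symm h2
      · rw [MHNN.ReducedWord.prod_cons, tl, tl, mul_assoc]
  · rintro ⟨w, hw, rfl⟩
    exact mhnnEv_mem_Rd_aux _ w s rfl hw

/-- Every reduced word is `ofGroup g`, or its product is `of g * y`, `y ∈ Rd s`, `s` = its first letter (`cases_cons`, `prod_cons`, `mem_Rd_iff`). -/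
theorem prod_cases (w : ReducedWord G A B) :
    (w.toList = [] ∧ w.prod φ = MHNN.of w.head) ∨
      ∃ s : ι × Bool, ∃ y ∈ Rd φ s, w.prod φ = MHNN.of w.head * y ∧
        Option.map Prod.fst w.toList.head? = some (s.1, sg s.2) := by
  rcases MHNN.ReducedWord.cases_cons w with ⟨g, rfl⟩ | ⟨g, i, u, w', h', rfl⟩
  · left
    simp
  · right
    obtain ⟨b, rfl⟩ := exists_sg u
    refine ⟨(i, b), tl φ (i, b) * w'.prod φ, (mem_Rd_iff _ _).2 ⟨w', h', rfl⟩, ?_, by simp⟩
    rw [MHNN.ReducedWord.prod_cons]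
    rfl

/-- Conversely `of g * y`, `y ∈ Rd s`, is the product of a reduced word with head `g` and first letter `s`. -/
theorem exists_reducedWord_of_mem_Rd (g : G) {s : ι × Bool} {y : MHNN G A B φ} (hy : y ∈ Rd φ s) :
    ∃ w : ReducedWord G A B, w.prod φ = MHNN.of g * y ∧ w.head = g ∧
      ∃ g₁ l, w.toList = ((s.1, sg s.2), g₁) :: l := by
  obtain ⟨w', h', rfl⟩ := (mem_Rd_iff _ _).1 hy
  refine ⟨MHNN.ReducedWord.cons g s.1 (sg s.2) w' h', ?_, rfl, w'.head, w'.toList, rfl⟩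
  rw [MHNN.ReducedWord.prod_cons]
  rfl

/-- (E1).  `→`: `exists_reducedWord`, `prod_cases`, (`of g ≠ 1 → g ≠ 1`). `←`: `of_injective`; `exists_reducedWord_of_mem_Rd` and `prod_eq_one_iff`. -/
theorem ne_one_iff (x : MHNN G A B φ) :
    x ≠ 1 ↔ (∃ g : G, g ≠ 1 ∧ x = MHNN.of g) ∨ ∃ (g : G) (s : ι × Bool), ∃ y ∈ Rd φ s, x = MHNN.of g * y := by
  constructor
  · intro hx
    obtain ⟨w, rfl⟩ := MHNN.exists_reducedWord x
    rcases prod_cases (φ := φ) w with ⟨_, h2⟩ | ⟨s, y, hy, h2, _⟩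
    · left
      refine ⟨w.head, ?_, h2⟩
      intro h1
      apply hx
      rw [h2, h1, map_one]
    · right
      exact ⟨w.head, s, y, hy, h2⟩
  · rintro (⟨g, hg, rfl⟩ | ⟨g, s, y, hy, rfl⟩)
    · intro h
      apply hg
      apply MHNN.of_injective (φ := φ)
      rw [h, map_one]
    · intro h
      obtain ⟨w, hw, _, g₁, l, hl⟩ := exists_reducedWord_of_mem_Rd g hy
      rw [← hw, MHNN.ReducedWord.prod_eq_one_iff] at h
      rw [hl] at h
      simp at h

theorem ne_one_eq : {x : MHNN G A B φ | x ≠ 1} =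
    MHNN.of '' {g : G | g ≠ 1} ∪ ⋃ s : ι × Bool, Set.range (MHNN.of : G → MHNN G A B φ) * Rd φ s := by
  ext x
  rw [Set.mem_ofPred_eq, ne_one_iff]
  constructor
  · rintro (⟨g, hg, rfl⟩ | ⟨g, s, y, hy, rfl⟩)
    · exact Or.inl ⟨g, hg, rfl⟩
    · exact Or.inr (Set.mem_iUnion.2 ⟨s, Set.mul_mem_mul ⟨g, rfl⟩ hy⟩)
  · rintro (⟨g, hg, rfl⟩ | h)
    · exact Or.inl ⟨g, hg, rfl⟩
    · obtain ⟨s, hs⟩ := Set.mem_iUnion.1 h
      obtain ⟨_, ⟨g, rfl⟩, y, hy, rfl⟩ := Set.mem_mul.1 hs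
      exact Or.inr ⟨g, s, y, hy, rfl⟩

variable (A B) in
/-- The heads which cannot be absorbed. -/
def Hd (S : Subgroup G) (J : Set ι) (s : ι × Bool) : Set G :=
  {g | s.1 ∈ J → g ∉ (S : Set G) * (As A B (s.1, !s.2) : Set G)}

/-- `g ∈ S * As (i,!b)` iff `g * c ∈ S` for some `c ∈ toSubgroup (-sg b)` (`sg_not`). -/
theorem mem_mul_As_iff (S : Subgroup G) (s : ι × Bool) (g : G) :
    g ∈ (S : Set G) * (As A B (s.1, !s.2) : Set G) ↔
      ∃ c : toSubgroup (A s.1) (B s.1) (-sg s.2), g * (c : G) ∈ S := by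
  have hAs : As A B (s.1, !s.2) = toSubgroup (A s.1) (B s.1) (-sg s.2) := by
    unfold As
    simp only [sg_not]
  rw [hAs]
  constructor
  · rintro ⟨σ, hσ, a, ha, rfl⟩
    refine ⟨⟨a⁻¹, inv_mem ha⟩, ?_⟩
    simpa using hσ
  · rintro ⟨c, hc⟩
    exact ⟨g * (c : G), hc, (c : G)⁻¹, inv_mem c.2, by simp⟩

/-- (E2), soundness: a reduced word whose head cannot be absorbed is not in `Sub S J` (`mem_sub_iff`, `Absorb`). -/
theorem not_mem_sub_of_Hd {S : Subgroup G} {J : Set ι} (h : MHNN.Compat φ S J) {g : G} {s : ι × Bool}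
    (hg : g ∈ Hd A B S J s) {y : MHNN G A B φ} (hy : y ∈ Rd φ s) : MHNN.of g * y ∉ MHNN.Sub φ S J := by
  intro hmem
  obtain ⟨w, hw, hhead, g₁, l, hl⟩ := exists_reducedWord_of_mem_Rd g hy
  rw [← hw, MHNN.mem_sub_iff h w, hhead, hl] at hmem
  obtain ⟨hJ, b, hb, -⟩ := hmem
  exact hg hJ ((mem_mul_As_iff S s g).2 ⟨b, hb⟩)

/-- (E2).
`←`: `σ * y ∈ Sub ↔ y ∈ Sub`; `of_mem_sub_iff`, `not_mem_sub_of_Hd`.
`→`: for a reduced word `w` with `w.prod ∉ Sub`, induction on `w.toList.length` (all `w`). `w.toList = []`: `w.head ∉ S`, `σ = 1`. `w = cons g i u w' h'`, `u = sg b`, `s = (i,b)`: if `g ∈ Hd s`: `σ = 1`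
(`prod_cases` or `mem_Rd_iff`). Otherwise `i ∈ J` and `g * c ∈ S` for some `c ∈ toSubgroup (-u)` (`mem_mul_As_iff`);
`w.prod = of (g c) * t^u * (of (ψ_{-u}(c))⁻¹ * w'.prod)` (`of_mul_t_zpow`); `σ₀ := of (g c) * t^u ∈ Sub` (`of_mem_sub`, `t_zpow_mem_sub`); `w'' := smulBase (ψ_{-u}(c))⁻¹ w'` is a shorter reduced word with
`w''.prod ∉ Sub`; induction gives `σ'`, `y`; take `σ = σ₀ σ'`. -/
theorem not_mem_sub_iff {S : Subgroup G} {J : Set ι} (h : MHNN.Compat φ S J) (x : MHNN G A B φ) :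
    x ∉ MHNN.Sub φ S J ↔ ∃ σ ∈ MHNN.Sub φ S J, ∃ y, x = σ * y ∧
      ((∃ g : G, g ∉ S ∧ y = MHNN.of g) ∨
        ∃ (g : G) (s : ι × Bool), g ∈ Hd A B S J s ∧ ∃ z ∈ Rd φ s, y = MHNN.of g * z) := by
  constructor
  · have key : ∀ (n : ℕ) (w : ReducedWord G A B), w.toList.length = n →
        w.prod φ ∉ MHNN.Sub φ S J → ∃ σ ∈ MHNN.Sub φ S J, ∃ y, w.prod φ = σ * y ∧
          ((∃ g : G, g ∉ S ∧ y = MHNN.of g) ∨
            ∃ (g : G) (s : ι × Bool), g ∈ Hd A B S J s ∧ ∃ z ∈ Rd φ s, y = MHNN.of g * z) := by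
      intro n
      induction n with
      | zero =>
        intro w hn hw
        have hnil : w.toList = [] := List.length_eq_zero_iff.1 hn
        have hw' : w.prod φ = MHNN.of w.head := by simp [ReducedWord.prod, hnil]
        refine ⟨1, one_mem _, w.prod φ, by simp, Or.inl ⟨w.head, ?_, hw'⟩⟩
        intro hS
        exact hw (by rw [hw']; exact MHNN.of_mem_sub J hS)
      | succ n ih =>
        intro w hn hw
        rcases MHNN.ReducedWord.cases_cons w with ⟨g, rfl⟩ | ⟨g, i, u, w', h', rfl⟩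
        · simp at hn
        obtain ⟨b, rfl⟩ := exists_sg u
        by_cases hg : g ∈ Hd A B S J (i, b)
        · refine ⟨1, one_mem _, _, (one_mul _).symm, Or.inr ⟨g, (i, b), hg,
            tl φ (i, b) * w'.prod φ, (mem_Rd_iff (i, b) _).2 ⟨w', h', rfl⟩, ?_⟩⟩
          rw [MHNN.ReducedWord.prod_cons]
          rfl
        · have hg' : i ∈ J ∧ g ∈ (S : Set G) * (As A B (i, !b) : Set G) := by
            unfold Hd at hg
            simp only [Set.mem_ofPred_eq, Classical.not_imp, not_not] at hg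
            exact hg
          obtain ⟨hiJ, hgm⟩ := hg'
          obtain ⟨c, hc⟩ := (mem_mul_As_iff S (i, b) g).1 hgm
          have h2 := MHNN.of_mul_t_zpow (φ := φ) i (sg b) c
          have e : (MHNN.ReducedWord.cons g i (sg b) w' h').prod φ =
              (MHNN.of (g * (c : G)) * MHNN.t i ^ ((sg b : ℤˣ) : ℤ)) *
                (MHNN.ReducedWord.smulBase ((toSubgroupEquiv (φ i) (-sg b) c : G)⁻¹) w').prod φ := by
            rw [MHNN.ReducedWord.prod_cons, MHNN.ReducedWord.prod_smulBase, map_mul, map_inv,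
              mul_assoc (MHNN.of g), h2]
            simp only [mul_assoc, mul_inv_cancel_left]
          have hσ₀ : (MHNN.of (g * (c : G)) * MHNN.t i ^ ((sg b : ℤˣ) : ℤ) : MHNN G A B φ) ∈
              MHNN.Sub φ S J := mul_mem (MHNN.of_mem_sub J hc) (MHNN.t_zpow_mem_sub S hiJ _)
          have hw'' : (MHNN.ReducedWord.smulBase ((toSubgroupEquiv (φ i) (-sg b) c : G)⁻¹) w').prod φ ∉
              MHNN.Sub φ S J := by
            intro hm
            apply hw
            rw [e]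
            exact mul_mem hσ₀ hm
          obtain ⟨σ', hσ', y, hy, hcase⟩ :=
            ih (MHNN.ReducedWord.smulBase ((toSubgroupEquiv (φ i) (-sg b) c : G)⁻¹) w')
              (by simpa using hn) hw''
          refine ⟨_, mul_mem hσ₀ hσ', y, ?_, hcase⟩
          rw [e, hy]
          simp only [mul_assoc]
    intro hx
    obtain ⟨w, rfl⟩ := MHNN.exists_reducedWord (φ := φ) x
    exact key _ w rfl hx
  · rintro ⟨σ, hσ, y, rfl, hcase⟩ hmem
    have hy : y ∈ MHNN.Sub φ S J := (Subgroup.mul_mem_cancel_left _ hσ).1 hmem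
    rcases hcase with ⟨g, hg, rfl⟩ | ⟨g, s, hg, z, hz, rfl⟩
    · exact hg ((MHNN.of_mem_sub_iff h g).1 hy)
    · exact not_mem_sub_of_Hd h hg hz hy

theorem sub_compl_eq {S : Subgroup G} {J : Set ι} (h : MHNN.Compat φ S J) :
    (MHNN.Sub φ S J : Set (MHNN G A B φ))ᶜ = (MHNN.Sub φ S J : Set (MHNN G A B φ)) *
      (MHNN.of '' (S : Set G)ᶜ ∪ ⋃ s : ι × Bool, MHNN.of '' Hd A B S J s * Rd φ s) := by
  ext x
  rw [Set.mem_compl_iff, SetLike.mem_coe, not_mem_sub_iff h x]
  constructor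
  · rintro ⟨σ, hσ, y, rfl, hcase⟩
    refine Set.mul_mem_mul hσ ?_
    rcases hcase with ⟨g, hg, rfl⟩ | ⟨g, s, hg, z, hz, rfl⟩
    · exact Or.inl ⟨g, hg, rfl⟩
    · exact Or.inr (Set.mem_iUnion.2 ⟨s, Set.mul_mem_mul ⟨g, hg, rfl⟩ hz⟩)
  · rintro ⟨σ, hσ, y, hy, rfl⟩
    refine ⟨σ, hσ, y, rfl, ?_⟩
    rcases hy with ⟨g, hg, rfl⟩ | hy
    · exact Or.inl ⟨g, hg, rfl⟩
    · obtain ⟨s, hs⟩ := Set.mem_iUnion.1 hy
      obtain ⟨_, ⟨g, hg, rfl⟩, z, hz, rfl⟩ := hs
      exact Or.inr ⟨g, s, hg, z, hz, rfl⟩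

end MhnnEv

end Claimed.Agent.R152.EV
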