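/-
Row 152, module EV (helper531).  EVIDENCE IN `MHNN G A B φ`: the sets of `MhnnEv.lean` are r.e.
Input (all as subsets of the big group): the base `G`, `G ∖ As s`, `G ∖ 1`; for `Sub S J`: `Sub S J`, `G ∖ S`, `G ∖ S * As (i,!b)` (`i ∈ J`).
Output: `re_ne_one`, `re_sub_compl`.
-/
import Claimed.Agent.R152.EV.MhnnEv

set_option autoImplicit false

namespace Claimed.Agent.R152.EV

open Claimed.Agent.R152.H Claimed.Agent.R152.H.MHNN.NormalWord
open HNNExtension (toSubgroup toSubgroupEquiv)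
open scoped Pointwise

namespace MhnnEv

variable {α π : Type*} [Primcodable α] [Primcodable π]
variable {G : Type*} [Group G] {ι : Type*} [Primcodable ι] [Finite ι] {A B : ι → Subgroup G}
  {φ : ∀ i, A i ≃* B i} {μ : Mark α (MHNN G A B φ)}

omit [Primcodable ι] [Finite ι] in
theorem RdT_eq (s : ι × Bool) :
    RdT φ s = {tl φ s} * Set.range (MHNN.of : G → MHNN G A B φ) := by
  ext x
  simp only [RdT, Set.mem_ofPred_eq, Set.mem_mul, Set.mem_singleton_iff, Set.mem_range]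
  constructor
  · rintro ⟨g, rfl⟩
    exact ⟨_, rfl, _, ⟨g, rfl⟩, rfl⟩
  · rintro ⟨_, rfl, _, ⟨g, rfl⟩, rfl⟩
    exact ⟨g, rfl⟩

omit [Primcodable ι] [Finite ι] in
theorem RdE_eq_of_eq {s s' : ι × Bool} (h : s' = (s.1, !s.2)) :
    RdE φ s s' = {tl φ s} * MHNN.of '' (As A B s : Set G)ᶜ := by
  ext x
  simp only [RdE, Set.mem_ofPred_eq, Set.mem_mul, Set.mem_singleton_iff, Set.mem_image]
  constructor
  · rintro ⟨g, hg, rfl⟩
    exact ⟨_, rfl, _, ⟨g, hg h, rfl⟩, rfl⟩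
  · rintro ⟨_, rfl, _, ⟨g, hg, rfl⟩, rfl⟩
    exact ⟨g, fun _ => hg, rfl⟩

omit [Primcodable ι] [Finite ι] in
theorem RdE_eq_of_ne {s s' : ι × Bool} (h : s' ≠ (s.1, !s.2)) :
    RdE φ s s' = {tl φ s} * Set.range (MHNN.of : G → MHNN G A B φ) := by
  ext x
  simp only [RdE, Set.mem_ofPred_eq, Set.mem_mul, Set.mem_singleton_iff, Set.mem_range]
  constructor
  · rintro ⟨g, -, rfl⟩
    exact ⟨_, rfl, _, ⟨g, rfl⟩, rfl⟩
  · rintro ⟨_, rfl, _, ⟨g, rfl⟩, rfl⟩
    exact ⟨g, fun h' => absurd h' h, rfl⟩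

/-- `Rd s` is r.e. -/
theorem re_Rd (hG : RESet μ (fun _ : π => Set.range (MHNN.of : G → MHNN G A B φ)))
    (hAs : ∀ s : ι × Bool, RESet μ (fun _ : π => MHNN.of (φ := φ) '' (As A B s : Set G)ᶜ))
    (s : ι × Bool) : RESet μ (fun _ : π => Rd φ s) := by
  classical
  refine RESet.rl (σ := ι × Bool) (T := fun s _ => RdT φ s) (E := fun s s' _ => RdE φ s s')
    (fun s => ((RESet.singleton (tl φ s)).mul hG).of_eq (fun _ => (RdT_eq s).symm)) ?_ s
  intro s s'
  by_cases h : s' = (s.1, !s.2)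
  · exact ((RESet.singleton (tl φ s)).mul (hAs s)).of_eq (fun _ => (RdE_eq_of_eq h).symm)
  · exact ((RESet.singleton (tl φ s)).mul hG).of_eq (fun _ => (RdE_eq_of_ne h).symm)

/-- (E1) `𝔊 ∖ 1` IS R.E. -/
theorem re_ne_one (hG : RESet μ (fun _ : π => Set.range (MHNN.of : G → MHNN G A B φ)))
    (hAs : ∀ s : ι × Bool, RESet μ (fun _ : π => MHNN.of (φ := φ) '' (As A B s : Set G)ᶜ))
    (h1 : RESet μ (fun _ : π => MHNN.of (φ := φ) '' {g : G | g ≠ 1})) :
    RESet μ (fun _ : π => {x : MHNN G A B φ | x ≠ 1}) :=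
  (h1.union (RESet.iUnion_finite (ι := ι × Bool) (fun s => hG.mul (re_Rd hG hAs s)))).of_eq
    (fun _ => ne_one_eq.symm)

/-- (E2) `𝔊 ∖ Sub S J` IS R.E. (`S` may depend on the parameter). -/
theorem re_sub_compl (hG : RESet μ (fun _ : π => Set.range (MHNN.of : G → MHNN G A B φ)))
    (hAs : ∀ s : ι × Bool, RESet μ (fun _ : π => MHNN.of (φ := φ) '' (As A B s : Set G)ᶜ))
    {S : π → Subgroup G} {J : Set ι} (hc : ∀ p, MHNN.Compat φ (S p) J)
    (hSub : RESet μ (fun p => (MHNN.Sub φ (S p) J : Set (MHNN G A B φ))))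
    (hS : RESet μ (fun p => MHNN.of (φ := φ) '' (S p : Set G)ᶜ))
    (hHd : ∀ s : ι × Bool, s.1 ∈ J →
      RESet μ (fun p => MHNN.of (φ := φ) '' ((S p : Set G) * (As A B (s.1, !s.2) : Set G))ᶜ)) :
    RESet μ (fun p => (MHNN.Sub φ (S p) J : Set (MHNN G A B φ))ᶜ) := by
  classical
  have h1 : ∀ s : ι × Bool, RESet μ (fun p => MHNN.of (φ := φ) '' Hd A B (S p) J s) := by
    intro s
    by_cases hs : s.1 ∈ J
    · refine (hHd s hs).of_eq (fun p => ?_)
      congr 1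
      ext g
      simp [Hd, hs]
    · refine hG.of_eq (fun p => ?_)
      have : Hd A B (S p) J s = Set.univ := by
        ext g
        simp [Hd, hs]
      rw [this, Set.image_univ]
  exact (hSub.mul (hS.union (RESet.iUnion_finite (ι := ι × Bool)
    (fun s => (h1 s).mul (re_Rd hG hAs s))))).of_eq (fun p => (sub_compl_eq (hc p)).symm)

end MhnnEv

end Claimed.Agent.R152.EV
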